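import Crest.Agent.N067.X0.Long

/-!
# Row 67, block X0 (helper18): `M.x0`
-/

set_option autoImplicit false

open MeasureTheory Laplacian InnerProductSpace Topology Filter Set Metric
open scoped RealInnerProductSpace Gradient ContDiff

namespace Crest.Agent.N067.M.X0

open Crest.Agent.R077 Crest.Agent.N067.V

noncomputable section

variable {n : ℕ} {β : Bo} {v : EE n → ℝ} {x x' z w om p : EE n} {r r' y ρm : ℝ}

/-- the chord `p` points into the lower half of the ball -/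
structure Low (v : EE n → ℝ) (x : EE n) (r : ℝ) (p : EE n) : Prop where
  ge : 3 / 4 * (r - dd v x) ≤ ‖p - (r - dd v x) • nu v x‖
  le : ‖p - (r - dd v x) • nu v x‖ ≤ 2 * (r - dd v x)
  neg : ⟪p - (r - dd v x) • nu v x, nu v x⟫ ≤ 0

theorem Sm.low (h : Sm v x r) (hp : ‖p‖ ≤ 1) : Low v x r p := by
  have h1 := norm_sub_norm_le ((r - dd v x) • nu v x) p
  have h2 := norm_sub_le p ((r - dd v x) • nu v x)
  have h3 : ⟪p, nu v x⟫ ≤ ‖p‖ := by simpa [h.ax] using real_inner_le_norm p (nu v x)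
  rw [norm_smul, h.ax, Real.norm_of_nonneg h.Lpos.le] at h1 h2
  rw [norm_sub_rev] at h1
  refine ⟨by linarith [h.L1, h.r8], by linarith [h.L1, h.r8], ?_⟩
  rw [inner_sub_left, real_inner_smul_left, real_inner_self_eq_norm_sq, h.ax]
  linarith [h.L1, h.r8]

theorem Con.low (h : Con β v x r w om z y) (hY : 3 / 4 * (r - dd v x) ≤ y + β.η * r)
    (hc : ⟪om, nu v x⟫ ≤ 0) : Low v x r (z - x) := by
  have h0 : 0 ≤ y + β.η * r := add_nonneg h.ypos.le (h.sm.eta β).1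
  have h1 := (h.tay_eq (h.cone.bl (by linarith [cu1_ge β]))).1
  have h2 := (div_le_iff₀ h.sm.Lpos).1 h.sig_le
  refine ⟨?_, ?_, ?_⟩ <;> rw [h1]
  · rwa [norm_smul, h.cone.unit, mul_one, Real.norm_of_nonneg h0]
  · rwa [norm_smul, h.cone.unit, mul_one, Real.norm_of_nonneg h0]
  · rw [real_inner_smul_left]; exact mul_nonpos_of_nonneg_of_nonpos h0 hc

theorem Low.sec (h : Low v x r p) (hs : Sm v x r) (β : Bo) (h1 : 0 < NN v x')
    (h2 : ‖nu v x' - nu v x‖ ≤ 1 / 16) (h3 : |r' - dd v x' - (r - dd v x)| ≤ 1 / 2)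
    (h4 : r' ≤ r + 1) : Sec β v x' r' p := by
  have hL := hs.L1
  have r8 := hs.r8
  set u := p - (r - dd v x) • nu v x
  set e := (r - dd v x) • (nu v x' - nu v x) + (r' - dd v x' - (r - dd v x)) • nu v x' with he
  have a1 : p - (r' - dd v x') • nu v x' = u - e := by
    rw [he, smul_sub, sub_smul (r' - dd v x')]; simp only [u]; abel
  have a2 : ‖e‖ ≤ (r - dd v x) / 8 := by
    refine (norm_add_le _ _).trans ?_
    rw [norm_smul, norm_smul, Wd.norm_nu h1, Real.norm_of_nonneg hs.Lpos.le, Real.norm_eq_abs]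
    nlinarith
  have a3 := norm_sub_norm_le u e
  have a4 : ⟪u, nu v x' - nu v x⟫ ≤ (r - dd v x) / 8 :=
    (real_inner_le_norm _ _).trans (by nlinarith [h.le, norm_nonneg (nu v x' - nu v x)])
  have a5 := (abs_le.1 (Wd.abs_inner_le a2 (Wd.norm_nu h1))).1
  rw [inner_sub_right] at a4
  refine ⟨?_, ?_⟩ <;> rw [a1]
  · nlinarith [h.ge, β.η0, β.η1]
  · rw [inner_sub_left]
    nlinarith [h.ge, h.neg, cu1_ge β]

/-- the defect of a short contact; the variables are `(x, r, x₀, c, q)` -/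
def Ps2 (v : EE n → ℝ) (C : ℝ) (a : EE n × ℝ × EE n × ℝ × EE n) : ℝ :=
  NN v a.1 / (a.2.1 - dd v a.1) -
    (a.2.2.2.1 + ⟪a.2.2.2.2, a.1 - a.2.2.1⟫ - C * ‖a.1 - a.2.2.1‖ ^ 2)

theorem Ps2_sm (hv : Sol v) (C : ℝ) {a : EE n × ℝ × EE n × ℝ × EE n} (hN : 0 < NN v a.1)
    (hL : a.2.1 - dd v a.1 ≠ 0) : ContDiffAt ℝ 2 (Ps2 v C) a := by
  have h1 : ContDiffAt ℝ 2 (fun a : EE n × ℝ × EE n × ℝ × EE n => a.1 - a.2.2.1) a :=
    contDiffAt_fst.sub contDiffAt_snd.snd.fst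
  exact (((NN_sm hv hN).comp a contDiffAt_fst).div (contDiffAt_snd.fst.sub
    ((c2_of hv.dd_sm _).comp a contDiffAt_fst)) hL).sub ((contDiffAt_snd.snd.snd.fst.add
      (ContDiffAt.inner ℝ contDiffAt_snd.snd.snd.snd h1)).sub (contDiffAt_const.mul (h1.norm_sq ℝ)))

theorem der2 {h q : EE n} {d' N' : ℝ} (C c ρ : ℝ) (hL : r - dd v x ≠ 0)
    (h1 : HasDerivAt (fun s : ℝ => dd v (x + s • h)) d' 0)
    (h2 : HasDerivAt (fun s : ℝ => NN v (x + s • h)) N' 0) :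
    HasDerivAt (fun s : ℝ => Ps2 v C ((x, r, x, c, q) + s • (h, ρ, 0)))
      ((N' * (r - dd v x) - NN v x * (ρ - d')) / (r - dd v x) ^ 2 - ⟪q, h⟫) 0 := by
  have l : HasDerivAt (fun s : ℝ => s • h) h 0 := by
    simpa using (hasDerivAt_id (0 : ℝ)).smul_const h
  have lr : HasDerivAt (fun s : ℝ => r + s * ρ) ρ 0 := by
    simpa using ((hasDerivAt_id (0 : ℝ)).mul_const ρ).const_add r
  have h3 := (h2.div (lr.sub h1) (by simpa using hL)).sub
    ((((hasDerivAt_const (0 : ℝ) q).inner ℝ l).const_add c).sub (l.norm_sq.const_mul C))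
  refine (h3.congr_deriv (by simp)).congr_of_eventuallyEq (Eventually.of_forall fun s => ?_)
  simp [Ps2]

theorem supp_short (n : ℕ) : ∃ B : ℝ, 1 ≤ B ∧ ∀ (β : Bo) (v : EE n → ℝ) (ρm : ℝ) (K : Set (EE n)),
    Sol v → IsCompact K → (∀ x ∈ K, 1 / 2 ≤ NN v x) → ∃ C δ : ℝ, 0 ≤ C ∧ 0 < δ ∧
      ∀ x ∈ K, ∀ r, Sm v x r → r ≤ ρm →
        (∀ ε > 0, ∃ p, Low v x r p ∧ NN v x / (r - dd v x) - ε ≤ Zf (dd v) p x) →
        Supp β v ρm x r C δ (B * r ^ 2) := by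
  obtain ⟨CL, hCL, HL⟩ := exists_lip_nn n
  obtain ⟨CZ, hCZ, HZ⟩ := zf_supp n
  refine ⟨3 * (CL + 1 + CZ), by linarith, fun β v ρm K hv hK hN => ?_⟩
  have dc := hv.dd_sm.continuous
  obtain ⟨C, δ, hC, hδ, hδ1, H⟩ := imp_sc (Ψ := Ps2 v CZ) (S := (K ×ˢ Icc 0 ρm ×ˢ
      K ×ˢ Icc 0 1 ×ˢ closedBall 0 CZ) ∩ {a | 1 ≤ a.2.1 - dd v a.1})
    ((hK.prod (isCompact_Icc.prod (hK.prod (isCompact_Icc.prod (isCompact_closedBall _ _))))
      ).inter_right (isClosed_le (by fun_prop) (by fun_prop)))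
    (fun a ha => Ps2_sm hv _ (by linarith [hN _ ha.1.1]) (one_pos.trans_le ha.2).ne')
    (κ := 1 / (3 * ρm ^ 2 + 1)) (by positivity)
  refine ⟨C, min δ (1 / (64 * CL)), hC, by positivity, fun x hx r h hr hA => ?_⟩
  obtain ⟨q, hq, hq'⟩ := HZ v hv x _ {p | Low v x r p} hA
  have hL := h.Lpos
  have hL1 := h.L1
  have hL2 := h.L2
  have r8 := h.r8
  have hN1 := NN_le_one hv x
  have hsm := Ps2_sm hv CZ (a := (x, r, x, NN v x / (r - dd v x), q)) h.Npos hL.ne'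
  have hr1 : fderiv ℝ (Ps2 v CZ) (x, r, x, NN v x / (r - dd v x), q) (0, 1, 0) ≤
      -(1 / (3 * r ^ 2)) := by
    rw [fderiv_line hsm (der2 (h := 0) (d' := 0) (N' := 0) CZ _ 1 hL.ne'
      (by simpa using hasDerivAt_const _ _) (by simpa using hasDerivAt_const _ _))]
    simp only [zero_mul, sub_zero, mul_one, zero_sub, inner_zero_right, neg_div, neg_le_neg_iff]
    rw [div_le_div_iff₀ (by positivity) (by positivity)]
    nlinarith [h.N, pow_le_pow_left₀ hL.le hL2 2]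
  have hS : (x, r, x, NN v x / (r - dd v x), q) ∈ (K ×ˢ Icc 0 ρm ×ˢ
      K ×ˢ Icc 0 1 ×ˢ closedBall 0 CZ) ∩ {a | 1 ≤ a.2.1 - dd v a.1} :=
    ⟨⟨hx, ⟨show 0 ≤ r by linarith, hr⟩, hx, ⟨(div_pos h.Npos hL).le,
      (div_le_one hL).2 (by linarith)⟩, mem_closedBall_zero_iff.2 hq⟩,
      show 1 ≤ r - dd v x by linarith⟩
  have hκ : 1 / (3 * ρm ^ 2 + 1) ≤ 1 / (3 * r ^ 2) :=
    one_div_le_one_div_of_le (by positivity) (by nlinarith)
  obtain ⟨p, p1, p2, p3⟩ := H x r (x, NN v x / (r - dd v x), q) hS (by simp [Ps2])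
    (hr1.trans (neg_le_neg hκ))
  refine ⟨p, p1, (norm_le_of (B := CL + 1 + CZ) (by positivity) (by positivity) hr1 p2
    fun a => ?_).trans_eq (by field_simp), fun a ha ha0 => ?_⟩
  · obtain ⟨d', N', ν', b1, b2, -, b4, b5, -⟩ := line_der (by linarith) hv h.N
      (fun y => ⟨(HL v hv x y).2.1, (HL v hv x y).2.2 h.N⟩) a
    rw [fderiv_line hsm (der2 CZ _ 0 hL.ne' b4 b5)]
    have c0 := norm_nonneg a
    have c1 : |⟪q, a⟫| ≤ CZ * ‖a‖ :=
      (abs_real_inner_le_norm _ _).trans (mul_le_mul_of_nonneg_right hq c0)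
    have c2 : |(N' * (r - dd v x) - NN v x * (0 - d')) / (r - dd v x) ^ 2| ≤ (CL + 1) * ‖a‖ := by
      rw [abs_div, abs_sq, div_le_iff₀ (by positivity)]
      refine (abs_sub _ _).trans ?_
      rw [abs_mul, abs_mul, abs_of_pos hL, abs_of_pos h.Npos, zero_sub, abs_neg]
      have c3 : r - dd v x ≤ (r - dd v x) ^ 2 := by nlinarith
      have c4 : 0 ≤ CL * ‖a‖ := by positivity
      nlinarith [mul_le_mul_of_nonneg_right b2 hL.le, mul_le_mul_of_nonneg_left c3 c4,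
        mul_le_mul_of_nonneg_left (show 1 ≤ (r - dd v x) ^ 2 by linarith) c0,
        mul_le_mul_of_nonneg_right hN1 (abs_nonneg d')]
    linarith [abs_sub ((N' * (r - dd v x) - NN v x * (0 - d')) / (r - dd v x) ^ 2) ⟪q, a⟫]
  · obtain ⟨b1, b2⟩ := p3 a (ha.trans (min_le_left _ _))
    have b3 := h.near ((ha.trans (min_le_left _ _)).trans hδ1) b1
    have c2 := (le_div_iff₀ (by positivity)).1 (ha.trans (min_le_right _ _))
    have b4 : 0 < NN v (x + a) := by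
      have c1 := (abs_le.1 (HL v hv x (x + a)).2.1).1
      rw [add_sub_cancel_left] at c1
      linarith [h.N]
    have b5 := (HL v hv x (x + a)).2.2 h.N b4
    rw [add_sub_cancel_left] at b5
    have b7 := b2 ha0
    simp only [Ps2, add_sub_cancel_left] at b7
    obtain ⟨p', c3, c4⟩ := hq' a _ (half_pos (neg_pos.2 b7))
    exact Wd.rt_le b3.1 ((Low.sec c3 h β b4 (by linarith) b3.2
      (by linarith [(abs_le.1 b1).2])).not_fit b4 b3.1 (by linarith))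

theorem Supp.mono {C δ B C' δ' B' : ℝ} (h : Supp β v ρm x r C δ B) (h1 : C ≤ C') (h2 : δ' ≤ δ)
    (h3 : B ≤ B') : Supp β v ρm x r C' δ' B' :=
  let ⟨p, a, b, c⟩ := h
  ⟨p, a.trans h1, b.trans h3, fun h d e => (c h (d.trans h2) e).trans (by nlinarith [sq_nonneg ‖h‖])⟩

theorem deg_low (hs : Sm v x r) {e : EE n} (h : Deg v (NN v x / (r - dd v x)) e x) :
    ∀ ε > 0, ∃ p, Low v x r p ∧ NN v x / (r - dd v x) - ε ≤ Zf (dd v) p x := fun ε hε => by
  have h1 : Tendsto (fun s : ℝ => s • e) (𝓝[>] 0) (𝓝 0) :=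
    (Continuous.tendsto' (by fun_prop) 0 0 (by simp)).mono_left nhdsWithin_le_nhds
  obtain ⟨s, h2, h3⟩ := ((((tendsto_Zf hs.sol.dd_sm x).comp h1).eventually
    (lt_mem_nhds (neg_lt_zero.2 hε))).and (Ioo_mem_nhdsGT zero_lt_one)).exists
  refine ⟨s • e, hs.low (by rw [norm_smul, h.1, mul_one, Real.norm_of_nonneg h3.1.le]; exact h3.2.le), ?_⟩
  have h4 := h3.1.ne'
  simp only [Function.comp_apply, map_smul, smul_apply, smul_eq_mul, norm_smul, h.1, h.2, mul_one,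
    Real.norm_eq_abs, sq_abs] at h2
  rw [show s * (s * -(NN v x / (r - dd v x))) / s ^ 2 = -(NN v x / (r - dd v x)) by field_simp] at h2
  linarith

theorem supp_val (n : ℕ) (C2 : ℝ) : ∃ M B : ℝ, 1 ≤ M ∧ 1 ≤ B ∧ ∀ (β : Bo) (v : EE n → ℝ) (ρm : ℝ),
    PS v → (∀ x ∈ Val v M C2 ρm, VF β v ρm (1 / 4) 1 x) ∧ ∀ K ⊆ Val v M C2 ρm, IsCompact K →
      ∃ C δ : ℝ, 0 ≤ C ∧ 0 < δ ∧ ∀ x ∈ K,
        Supp β v ρm x (rt β v ρm x) C δ (B * rt β v ρm x ^ 2) := by
  obtain ⟨M, hM, H⟩ := val_contact n C2 1 (δ := 1 / 4) (by norm_num) le_rfl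
  obtain ⟨B1, hB1, H1⟩ := supp_long n
  obtain ⟨B2, hB2, H2⟩ := supp_short n
  refine ⟨M, B1 + B2, hM, by linarith, fun β v ρm hv => ⟨fun x hx => (H β v ρm hv x hx).1,
    fun K hKV hK => ?_⟩⟩
  have hN : ∀ x ∈ K, 1 / 2 ≤ NN v x := fun x hx => (H β v ρm hv x (hKV hx)).1.sm.N
  obtain ⟨C1, δ1, c1, d1, G1⟩ := H1 β v ρm K hv.toPos.toSol hK hN
  obtain ⟨C2, δ2, c2, d2, G2⟩ := H2 β v ρm K hv.toPos.toSol hK hN
  refine ⟨C1 + C2, min δ1 δ2, by positivity, by positivity, fun x hx => ?_⟩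
  obtain ⟨h1, h2⟩ := H β v ρm hv x (hKV hx)
  have h0 := sq_nonneg (rt β v ρm x)
  have hr := rt_le_rm β v ρm x
  rcases hr.eq_or_lt with h3 | h3
  · refine ⟨0, by rw [norm_zero]; positivity, by rw [norm_zero]; positivity, fun h _ _ => ?_⟩
    rw [inner_zero_left, sub_zero, h3]
    exact (rt_le_rm β v ρm _).trans (le_add_of_nonneg_right (by positivity))
  have hs := fun h => (G2 x hx _ h1.sm hr h).mono (show C2 ≤ C1 + C2 by linarith)
    (min_le_right δ1 δ2) (show B2 * rt β v ρm x ^ 2 ≤ (B1 + B2) * rt β v ρm x ^ 2 by nlinarith)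
  rcases h2 h3 with ⟨e, he⟩ | ⟨w, om, z, y, hc, hY⟩
  · exact hs (deg_low h1.sm he)
  rw [show (1 - 1 / 4 : ℝ) = 3 / 4 by norm_num] at hY
  rcases le_total 0 ⟪om, nu v x⟫ with h4 | h4
  · exact (G1 x hx _ w om z y hc hr hY h4).mono (by linarith) (min_le_left _ _) (by nlinarith)
  · refine hs fun ε hε => ⟨z - x, hc.low hY h4, ?_⟩
    rw [(hc.far (hc.cone.bl (by linarith [cu1_ge β]))).Zf_eq]
    linarith

theorem Supp.grad {C δ B : ℝ} (h : Supp β v ρm x (rt β v ρm x) C δ B) (hδ : 0 < δ)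
    (hd : DifferentiableAt ℝ (rt β v ρm) x) : ‖∇ (rt β v ρm) x‖ ≤ B := by
  obtain ⟨p, -, h1, h2⟩ := h
  have h3 : HasFDerivAt (fun y => rt β v ρm x + (C * ‖y - x‖ ^ 2 - ⟪p, y - x⟫))
      (-innerSL ℝ p) x := by
    have a1 := (hasFDerivAt_id (𝕜 := ℝ) x).sub_const x
    refine (((a1.norm_sq.const_mul C).sub ((innerSL ℝ p).hasFDerivAt.comp x a1)).const_add _
      ).congr_fderiv ?_
    ext1 a; simp
  have h4 := fderiv_touch h3.differentiableAt hd (by simp)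
    (mem_of_superset (closedBall_mem_nhds x hδ) fun y hy => by
      by_cases h0 : y = x
      · simp [h0]
      · simpa using h2 (y - x) (mem_closedBall_iff_norm.1 hy) (sub_ne_zero.2 h0))
  rw [St.norm_grad, h4, h3.fderiv, norm_neg, innerSL_apply_norm]
  exact h1

theorem isOpen_val (hv : PS v) (M C2 ρm : ℝ) : IsOpen (Val v M C2 ρm) := by
  have hs := hv.toPos.toSol
  have h := ph0_pos hv.toPos hv.stab
  have h1 : Continuous (ph0 v) := (continuous_phi hs).max (continuous_phi (sol_ng hs))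
  have h2 := hs.dd_sm.continuous.abs
  have h3 : Continuous fun x => Real.log (1 / ph0 v x) :=
    (continuous_const.div h1 fun x => (h x).ne').log fun x => (one_div_pos.2 (h x)).ne'
  exact (isOpen_lt h1 continuous_const).and ((isOpen_lt h2 (continuous_const.mul h3)).and
    (isOpen_lt (by fun_prop) continuous_const))

end

end Crest.Agent.N067.M.X0

namespace Crest.Agent.N067.M

open Crest.Agent.R077 Crest.Agent.N067.V X0

/-- **block X0** -/
theorem x0 (n : ℕ) : X0Stmt n := fun C2 β => by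
  obtain ⟨M, B, hM, hB, H⟩ := supp_val n C2
  refine ⟨M, B, hM, hB, fun v ρm hv => ?_⟩
  obtain ⟨H1, H2⟩ := H β v ρm hv
  have hO := isOpen_val hv M C2 ρm
  refine ⟨hO, ?_, fun x hx => ⟨rt_le_rm _ _ _ _, (H1 x hx).sm.d, (H1 x hx).lo,
    fun r => fit_of_le_rt, (H1 x hx).sm.phi_mul_le (H1 x hx).fit, fun hd => ⟨?_, fun h => ?_⟩⟩⟩
  · have h1 : SC (Val v M C2 ρm) fun x => -rt β v ρm x := fun K h hK => by
      obtain ⟨C, δ, hC, hδ, G⟩ := H2 K h hK
      refine ⟨C, δ, hC, hδ, fun x hx => ?_⟩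
      obtain ⟨p, a, -, b⟩ := G x hx
      refine ⟨p, a, fun y hy => ?_⟩
      by_cases h0 : y = 0
      · simp [h0]
      · linarith [b y hy h0]
    have h2 := h1.comp1 hO (F := fun s => (-s)⁻¹) (J := Iio 0) isOpen_Iio
      (contDiffOn_id.neg.inv fun s hs => (neg_pos.2 hs).ne')
      (fun a _ b hb h => inv_anti₀ (neg_pos.2 hb) (neg_le_neg h))
      (fun x hx => neg_lt_zero.2 (show 0 < rt β v ρm x by linarith [(H1 x hx).sm.r8]))
    simp only [neg_neg] at h2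
    exact h2
  · obtain ⟨C, δ, -, hδ, G⟩ := H2 {x} (singleton_subset_iff.2 hx) isCompact_singleton
    exact (G x rfl).grad hδ hd
  · have h1 : IsLocalMax (rt β v ρm) x := Eventually.of_forall fun y => (rt_le_rm β v ρm y).trans_eq h.symm
    rw [gradient, h1.fderiv_eq_zero, map_zero]

end Crest.Agent.N067.M
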