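import Crest.Agent.N067.X0.Fit

/-!
# Row 67, block X0 (helper18): first order data of a contact, trichotomy
-/

set_option autoImplicit false

open MeasureTheory Laplacian InnerProductSpace Topology Filter Set Metric
open scoped RealInnerProductSpace Gradient ContDiff

namespace Crest.Agent.N067.M.X0

open Crest.Agent.R077 Crest.Agent.N067.V

noncomputable section

variable {n : ℕ} {β : Bo} {v : EE n → ℝ} {x z w om p ν : EE n} {r y ρm ε : ℝ}

theorem Rim.tan_pos (h : Rim β ν w om) (hν : ‖ν‖ = 1) : 0 < ‖tan ν w‖ := by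
  have h1 := norm_tan_sq hν w
  have h2 := cu1_ge β
  have h3 := (div_pos β.h0 β.η0).trans_le (cu1_lt β)
  rw [h.n1, h.ax] at h1
  refine (norm_nonneg _).lt_of_ne fun h0 => ?_
  rw [← h0] at h1
  have h4 : 0 < β.η ^ 2 * ((1 - cu1 β) * (1 + cu1 β)) :=
    mul_pos (pow_pos β.η0 2) (mul_pos h3 (by linarith))
  nlinarith

/-- the normal cone on the rim -/
theorem Rim.comb (h : Rim β ν w om) (hc : Cone β ν w om) :
    ∃ a b : ℝ, 0 ≤ a ∧ 0 ≤ b ∧ om = a • w + b • (w + (3 : ℝ) • ν) := by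
  have h0 := h.tan_pos hc.ax
  have h1 := norm_tan_sq hc.ax w
  have h2 := norm_tan_sq hc.ax om
  have h3 := cu1_ge β
  have hη := β.η0
  have hg := ga_ge β
  have h4 : tan ν om = (‖tan ν om‖ / ‖tan ν w‖) • tan ν w := by
    rw [div_eq_inv_mul, mul_smul, ← hc.par, smul_smul, inv_mul_cancel₀ h0.ne', one_smul]
  have h5 : 3 + β.η * cu1 β = ga β * cu0 β := by
    rw [cu1, cu0]; field_simp; ring
  have h6 : ‖tan ν w‖ ^ 2 = ga β ^ 2 - (ga β * cu0 β) ^ 2 := by
    have := norm_add3_sq hc.ax w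
    rw [h.n2, h.ax] at this
    rw [h1, ← h5, h.ax, this]; ring
  have hc0 : 0 ≤ ⟪om, ν⟫ := by linarith [h.ge]
  rw [h.n1, h.ax] at h1
  rw [hc.unit] at h2
  set s := ‖tan ν om‖
  set τ := ‖tan ν w‖
  have hs : 0 ≤ s := norm_nonneg _
  have b1 : s * (β.η * cu1 β) ≤ ⟪om, ν⟫ * τ := by
    rw [← sq_le_sq₀ (mul_nonneg hs (mul_nonneg hη.le (by linarith))) (mul_nonneg hc0 h0.le),
      mul_pow, mul_pow ⟪_, _⟫, h1, h2]
    nlinarith [mul_nonneg (sq_nonneg β.η)
      (sub_nonneg.2 (pow_le_pow_left₀ (by linarith) h.ge 2))]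
  have b2 : ⟪om, ν⟫ * τ ≤ s * (ga β * cu0 β) := by
    rw [← sq_le_sq₀ (mul_nonneg hc0 h0.le) (mul_nonneg hs (mul_nonneg (by linarith)
      (hc0.trans h.le))), mul_pow, mul_pow s, h6, h2]
    nlinarith [mul_nonneg (sq_nonneg (ga β)) (sub_nonneg.2 (pow_le_pow_left₀ hc0 h.le 2))]
  refine ⟨s / τ - (⟪om, ν⟫ - s / τ * (β.η * cu1 β)) / 3, (⟪om, ν⟫ - s / τ * (β.η * cu1 β)) / 3,
    ?_, ?_, ?_⟩
  · have := (le_div_iff₀ h0).2 b2
    rw [← h5, ← div_mul_eq_mul_div] at this
    linarith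
  · have := (div_le_iff₀ h0).2 b1
    rw [← div_mul_eq_mul_div] at this
    linarith
  · rw [smul_add, ← add_assoc, ← add_smul, sub_add_cancel, smul_smul, div_mul_cancel₀ _ three_ne_zero]
    nth_rw 1 [← add_tan ν om]
    rw [h4, tan, h.ax, smul_sub, smul_smul, sub_smul]
    abel

/-- a far contact -/
structure Con (β : Bo) (v : EE n → ℝ) (x : EE n) (r : ℝ) (w om z : EE n) (y : ℝ) : Prop where
  sm : Sm v x r
  fit : Fit β v x r
  cone : Cone β (nu v x) w om
  ypos : 0 < y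
  at' : z = cen v x r w + y • om
  ne : z ≠ x
  eq : dd v z = PP β v x r w z
  grad' : nn v z = -(NN v x * (y + β.η * r) / (r - dd v x)) • om
  lap' : √2 * v z * tt v z ≤ NN v x / (r - dd v x) * (1 + n * (y + β.η * r) / y)

/-- the smooth minorant of `PP` -/
def QQ (β : Bo) (v : EE n → ℝ) (x : EE n) (r : ℝ) (w : EE n) (y : ℝ) (z : EE n) : ℝ :=
  dd v x + gp (NN v x) (r - dd v x) ((‖z - cen v x r w‖ ^ 2 + y ^ 2) / (2 * y) + β.η * r)

theorem QQ_le (hN : 0 ≤ NN v x) (hr : |dd v x| < r) (hy : 0 < y) (w z : EE n) :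
    QQ β v x r w y z ≤ PP β v x r w z := by
  refine add_le_add_right (Wd.gp_anti hN (by linarith [le_abs_self (dd v x)])
    (add_nonneg (norm_nonneg _) (mul_nonneg β.η0.le ((abs_nonneg _).trans hr.le))) ?_) _
  rw [add_le_add_iff_right, le_div_iff₀ (by positivity)]
  nlinarith [sq_nonneg (‖z - cen v x r w‖ - y)]

theorem QQ_eq (hy : 0 < y) (h : ‖z - cen v x r w‖ = y) : QQ β v x r w y z = PP β v x r w z := by
  rw [QQ, PP, h]; congr 3; field_simp; ring

theorem con_of (h : Sm v x r) (hf : Fit β v x r) (hw : w ∈ Core β (nu v x)) (hz : z ≠ x)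
    (he : dd v z = PP β v x r w z) (hy : z ≠ cen v x r w) :
    ∃ om, Con β v x r w om z ‖z - cen v x r w‖ := by
  have hy0 : 0 < ‖z - cen v x r w‖ := norm_pos_iff.2 (sub_ne_zero.2 hy)
  set y := ‖z - cen v x r w‖ with hyd
  set om := y⁻¹ • (z - cen v x r w) with hom
  have h1 : ‖om‖ = 1 := by rw [hom, norm_smul, norm_inv, norm_norm, inv_mul_cancel₀ hy0.ne']
  have h2 : z - cen v x r w = y • om := by rw [hom, smul_smul, mul_inv_cancel₀ hy0.ne', one_smul]
  clear_value om y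
  have hL := h.Lpos
  have hN := h.Npos
  have hr : 0 < r := by linarith [h.r8]
  have hm : IsLocalMin (fun z' => dd v z' - QQ β v x r w y z') z := Eventually.of_forall fun z' => by
    simp only [QQ_eq hy0 hyd.symm, he]
    linarith [QQ_le (β := β) hN.le h.lt hy0 w z', hf w hw z']
  have hF : ∀ s, HasDerivAt (fun s => dd v x + gp (NN v x) (r - dd v x)
      ((s + y ^ 2) / (2 * y) + β.η * r))
      (-(NN v x / (r - dd v x) / (2 * y)) * ((s + y ^ 2) / (2 * y) + β.η * r)) s := fun s => by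
    unfold gp
    refine ((((((((hasDerivAt_id s).add_const _).div_const _).add_const _).pow 2).const_sub _
      ).const_mul _).div_const _).const_add _ |>.congr_deriv ?_
    simp only [id, Nat.cast_ofNat, Nat.add_one_sub_one, pow_one]; field_simp
  have hF2 : HasDerivAt (fun s => -(NN v x / (r - dd v x) / (2 * y)) *
      ((s + y ^ 2) / (2 * y) + β.η * r)) (-(NN v x / (r - dd v x) / (2 * y)) * (1 / (2 * y)))
      (‖z - cen v x r w‖ ^ 2) := ((((hasDerivAt_id _).add_const _).div_const _).add_const _).const_mul _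
  have hS : ContDiff ℝ 2 fun z' : EE n => ‖z' - cen v x r w‖ ^ 2 :=
    (contDiff_id.sub contDiff_const).norm_sq ℝ
  have hQ : ContDiff ℝ 2 (QQ β v x r w y) := by
    unfold QQ gp
    exact contDiff_const.add ((contDiff_const.mul (contDiff_const.sub
      ((((hS.add contDiff_const).div_const _).add contDiff_const).pow 2))).div_const _)
  refine ⟨om, h, hf, ⟨h.ax, hw, h1, fun w' hw' => le_of_forall_pos_le_add fun δ hδ => ?_⟩, hy0,
    by rw [← h2]; abel, hz, he, ext_inner_right ℝ fun a => ?_, ?_⟩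
  · obtain ⟨s, a1, a2⟩ := (Eventually.and (Ioo_mem_nhdsGT zero_lt_one) (Ioo_mem_nhdsGT
      (show (0 : ℝ) < δ * (2 * y) / (r * (‖w' - w‖ ^ 2 + 1)) by positivity))).exists
    have a3 := hf _ ((convex_core β _).add_smul_sub_mem hw hw' ⟨a1.1.le, a1.2.le⟩) z
    have a4 : z - cen v x r (w + s • (w' - w)) = y • om - (r * s) • (w' - w) := by
      rw [← h2, cen, cen, smul_add, smul_smul]; abel
    have a5 : y ≤ ‖y • om - (r * s) • (w' - w)‖ := not_lt.1 fun a5 => by
      rw [he, PP, PP, a4, ← hyd, gp, gp, add_le_add_iff_left, div_le_div_iff_of_pos_right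
        (by positivity), mul_le_mul_iff_right₀ hN] at a3
      nlinarith [(h.eta β).1, norm_nonneg (y • om - (r * s) • (w' - w))]
    have a6 := pow_le_pow_left₀ hy0.le a5 2
    rw [norm_sub_sq_real, real_inner_smul_left, real_inner_smul_right, norm_smul, norm_smul, h1,
      mul_one, mul_pow, Real.norm_eq_abs, Real.norm_eq_abs, sq_abs, sq_abs] at a6
    have a7 := (lt_div_iff₀ (by positivity)).1 a2.2
    have a8 : 0 < r * s := mul_pos hr a1.1
    have a9 : 2 * y * ⟪om, w' - w⟫ ≤ r * s * ‖w' - w‖ ^ 2 :=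
      le_of_mul_le_mul_left (by nlinarith) a8
    rw [zero_add]
    exact le_of_mul_le_mul_left (by nlinarith) (show 0 < 2 * y by positivity)
  · have a1 := hm.hasFDerivAt_eq_zero ((h.sol.dd_diff z).hasFDerivAt.sub
      ((hF _).comp_hasFDerivAt z (((hasFDerivAt_id z).sub_const (cen v x r w)).norm_sq)))
    have a2 := congrArg (fun T : EE n →L[ℝ] ℝ => T a) a1
    simp only [sub_apply, smul_apply, id, h2, ContinuousLinearMap.comp_id, innerSL_apply_apply,
      real_inner_smul_left, norm_smul, h1, zero_apply, smul_eq_mul, nsmul_eq_mul] at a2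
    rw [nn, inner_grad, real_inner_smul_left, sub_eq_zero.1 a2, Real.norm_of_nonneg hy0.le]
    field_simp; ring
  · have a1 := lap_of_min ((c2_of h.sol.dd_sm z).sub hQ.contDiffAt) hm
    rw [lap_sub' (c2_of h.sol.dd_sm z) hQ.contDiffAt, ((deq n v h.sol).2 z).1] at a1
    have a2 := lap_comp hS.contDiffAt (by unfold gp; fun_prop) (Eventually.of_forall hF) hF2
    rw [lap_normSq, gsq_normSq, ← hyd] at a2
    change (Δ (QQ β v x r w y)) z = _ at a2
    rw [a2] at a1
    refine le_of_sub_nonneg (a1.trans_eq ?_)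
    field_simp; ring

theorem Con.norm_eq (h : Con β v x r w om z y) : ‖z - cen v x r w‖ = y := by
  rw [h.at', add_sub_cancel_left, norm_smul, h.cone.unit, mul_one, Real.norm_of_nonneg h.ypos.le]

theorem Con.NN_eq (h : Con β v x r w om z y) :
    NN v z = NN v x * (y + β.η * r) / (r - dd v x) := by
  have := h.sm.Lpos; have := h.sm.Npos; have := h.ypos; have := (h.sm.eta β).1
  rw [NN, h.grad', norm_smul, h.cone.unit, mul_one, norm_neg, Real.norm_of_nonneg (by positivity)]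

theorem Con.y_eq (h : Con β v x r w om z y) : y = NN v z / NN v x * (r - dd v x) - β.η * r := by
  have := h.sm.Lpos; have := h.sm.Npos
  rw [h.NN_eq]; field_simp; ring

theorem Con.pos (h : Con β v x r w om z y) :
    z = cen v x r w + (NN v z / NN v x * (r - dd v x) - β.η * r) • om := h.y_eq ▸ h.at'

theorem Con.grad (h : Con β v x r w om z y) : nn v z = -(NN v z) • om := by rw [h.grad', h.NN_eq]

theorem Con.sig (h : Con β v x r w om z y) (hε : (1 - ε) * (r - dd v x) ≤ y + β.η * r) :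
    (1 - ε) * NN v x ≤ NN v z := by
  rw [h.NN_eq, le_div_iff₀ h.sm.Lpos]
  nlinarith [h.sm.Npos]

theorem Con.lap (h : Con β v x r w om z y) (hε : 3 / 4 * (r - dd v x) ≤ y + β.η * r) :
    v z * tt v z * r ≤ 2 * n + 1 := by
  have hL := h.sm.Lpos
  have h1 := h.sm.L1
  have h2 := h.sm.eta β
  have hr := h.sm.r8
  have hy := h.ypos
  have h3 : (y + β.η * r) / y ≤ 2 := by rw [div_le_iff₀ hy]; linarith
  have h4 : NN v x / (r - dd v x) * (1 + n * (y + β.η * r) / y) ≤ (2 * n + 1) / (r - dd v x) := by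
    rw [div_mul_eq_mul_div, mul_div_assoc (n : ℝ)]
    refine div_le_div_of_nonneg_right ?_ hL.le
    have : (n : ℝ) * ((y + β.η * r) / y) ≤ n * 2 := mul_le_mul_of_nonneg_left h3 n.cast_nonneg
    have h5 : 0 ≤ (n : ℝ) * ((y + β.η * r) / y) := by have := h2.1; positivity
    nlinarith [NN_le_one h.sm.sol x, h.sm.Npos]
  have h5 := (le_div_iff₀ hL).1 (h.lap'.trans h4)
  have h6 : (8 / 7 : ℝ) ≤ √2 := Real.le_sqrt_of_sq_le (by norm_num)
  rcases le_total (v z * tt v z) 0 with h7 | h7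
  · have : (0 : ℝ) ≤ n := n.cast_nonneg
    nlinarith
  · have h8 : r ≤ √2 * (r - dd v x) := by nlinarith
    nlinarith [mul_le_mul_of_nonneg_left h8 h7]

/-- the three kinds of far contacts -/
theorem Con.tri (h : Con β v x r w om z y) :
    (⟪om, nu v x⟫ < cu1 β ∧ w = β.η • om ∧ ‖w + (3 : ℝ) • nu v x‖ < 3 + β.η - β.h) ∨
    (cu0 β < ⟪om, nu v x⟫ ∧ w = (3 + β.η - β.h) • om - (3 : ℝ) • nu v x ∧ ‖w‖ < β.η) ∨
    (Rim β (nu v x) w om ∧ ∃ a b : ℝ, 0 ≤ a ∧ 0 ≤ b ∧ om = a • w + b • (w + (3 : ℝ) • nu v x)) := by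
  have hη := β.η0
  have hg := ga_ge β
  rcases h.cone.tri with h1 | h1 | h1
  · refine Or.inl ⟨h1.1, h1.2, ?_⟩
    have h2 := h1.1
    rw [cu1, lt_div_iff₀ (by positivity)] at h2
    refine lt_of_pow_lt_pow_left₀ 2 (by change 0 ≤ ga β; linarith) ?_
    rw [norm_add3_sq h.sm.ax, h1.2, norm_smul, h.cone.unit, real_inner_smul_left,
      Real.norm_of_nonneg hη.le]
    change _ < ga β ^ 2
    linarith
  · refine Or.inr (Or.inl ⟨h1.1, h1.2, lt_of_pow_lt_pow_left₀ 2 hη.le ?_⟩)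
    have h2 := h1.1
    rw [cu0, div_lt_iff₀ (by positivity)] at h2
    rw [h1.2, norm_sub_sq_real, real_inner_smul_left, real_inner_smul_right, norm_smul, norm_smul,
      h.cone.unit, h.sm.ax, Real.norm_of_nonneg (by linarith : 0 ≤ ga β)]
    norm_num
    linarith
  · exact Or.inr (Or.inr ⟨h1, h1.comb h.cone⟩)

/-- a contact in the closed ball sector is a contact of the paraboloid -/
theorem Con.tay_eq (h : Con β v x r w om z y) (hw : w = β.η • om) :
    z - x - (r - dd v x) • nu v x = (y + β.η * r) • om ∧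
      tay (dd v) (z - x) x = NN v x / (r - dd v x) / 2 * ‖z - x‖ ^ 2 := by
  have h1 : z - x - (r - dd v x) • nu v x = (y + β.η * r) • om := by
    rw [h.at', cen, hw, smul_smul, add_smul, mul_comm r]; abel
  have h2 := PP_sector h.sm.Npos h.sm.lt h.cone.unit (by linarith [h.ypos]) h1
  rw [add_sub_cancel, ← hw, ← h.eq] at h2
  exact ⟨h1, by linarith⟩

theorem Con.far (h : Con β v x r w om z y) (hw : w = β.η • om) :
    Far v (NN v x / (r - dd v x)) (z - x) x := by
  have hL := h.sm.Lpos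
  refine ⟨sub_ne_zero.2 h.ne, (h.tay_eq hw).2, ?_⟩
  rw [add_sub_cancel, sub_eq_iff_eq_add.1 (h.tay_eq hw).1, smul_add, smul_smul, smul_smul,
    div_mul_cancel₀ _ hL.ne', smul_nu h.sm.Npos]
  change nn v z = nn v x - _
  rw [h.grad', neg_smul, div_mul_eq_mul_div]; abel

theorem Sm.psd (h : Sm v x r) (hf : Fit β v x r) (a : EE n) :
    0 ≤ hb (dd v) x a a + NN v x / (r - dd v x) * ‖a‖ ^ 2 :=
  hb_add_nonneg' h.sol.dd_sm (mem_of_superset (closedBall_mem_nhds 0 (half_pos h.Lpos)) fun _ hy =>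
    (h.sec (mem_closedBall_zero_iff.1 hy)).tay_le h.Npos h.lt hf) a

/-- **contacts** -/
theorem contact (n : ℕ) {ε : ℝ} (hε : 0 < ε) (hε1 : ε ≤ 1 / 4) : ∃ M : ℝ, ∀ (β : Bo) (v : EE n → ℝ)
    (ρm : ℝ) (x : EE n), Sm v x (rt β v ρm x) → |dd v x| ≤ ε ^ 2 / 80 * rt β v ρm x →
      M ≤ rt β v ρm x → rt β v ρm x < ρm →
      (∃ e, Deg v (NN v x / (rt β v ρm x - dd v x)) e x) ∨
      ∃ w om z y, Con β v x (rt β v ρm x) w om z y ∧
        (1 - ε) * (rt β v ρm x - dd v x) ≤ y + β.η * rt β v ρm x := by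
  obtain ⟨M, H⟩ := ndc n hε (by linarith)
  refine ⟨M, fun β v ρm x h hd hM hρ => (exists_contact h hρ).imp_right ?_⟩
  rintro ⟨w, hw, z, hz, he⟩
  have hf : Fit β v x (rt β v ρm x) := fit_of_le_rt h.lt le_rfl
  have h1 := H β v x w z _ h hd hM hf hw he
  obtain ⟨om, h2⟩ := con_of h hf hw hz he fun h0 => by
    rw [h0, sub_self, norm_zero] at h1
    nlinarith [(h.eta β).2, h.L1, h.r8]
  exact ⟨w, om, z, _, h2, h1⟩

end

end Crest.Agent.N067.M.X0
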