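import Crest.Agent.N067.X0.Geo
import Crest.Agent.N067.M.FlatU
import Crest.Agent.N067.M.Wedge0
import Crest.Agent.N067.V.Phi3

/-!
# Row 67, block X0 (helper18): `Fit`, `rt`, contacts
-/

set_option autoImplicit false

open MeasureTheory Laplacian InnerProductSpace Topology Filter Set Metric
open scoped RealInnerProductSpace Gradient ContDiff

namespace Crest.Agent.N067.M.X0

open Crest.Agent.R077 Crest.Agent.N067.V

noncomputable section

variable {n : ℕ} {β : Bo} {v : EE n → ℝ} {x z w om p : EE n} {r y ρm : ℝ}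

/-- the standing hypotheses at `(x, r)` -/
structure Sm (v : EE n → ℝ) (x : EE n) (r : ℝ) : Prop where
  sol : Sol v
  N : 1 / 2 ≤ NN v x
  d : 8 * |dd v x| + 8 ≤ r

theorem Sm.Npos (h : Sm v x r) : 0 < NN v x := by linarith [h.N]
theorem Sm.ax (h : Sm v x r) : ‖nu v x‖ = 1 := Wd.norm_nu h.Npos
theorem Sm.r8 (h : Sm v x r) : 8 ≤ r := by linarith [h.d, abs_nonneg (dd v x)]
theorem Sm.lt (h : Sm v x r) : |dd v x| < r := by linarith [h.d, abs_nonneg (dd v x)]
theorem Sm.L1 (h : Sm v x r) : 7 / 8 * r + 1 ≤ r - dd v x := by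
  linarith [h.d, le_abs_self (dd v x)]
theorem Sm.L2 (h : Sm v x r) : r - dd v x ≤ 9 / 8 * r := by
  linarith [h.d, neg_abs_le (dd v x)]
theorem Sm.Lpos (h : Sm v x r) : 0 < r - dd v x := by linarith [h.L1, h.r8]
theorem Sm.eta (h : Sm v x r) (β : Bo) : 0 ≤ β.η * r ∧ β.η * r ≤ r / 100 :=
  ⟨mul_nonneg β.η0.le (by linarith [h.r8]), by nlinarith [β.η1, h.r8]⟩
theorem Sm.mono (h : Sm v x r) {r' : ℝ} (hr : r ≤ r') : Sm v x r' := ⟨h.sol, h.N, h.d.trans hr⟩

theorem smul_nu (h : 0 < NN v x) : NN v x • nu v x = nn v x := by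
  rw [nu, smul_smul, mul_inv_cancel₀ h.ne', one_smul]

theorem gp_eq (N a : ℝ) {L : ℝ} (hL : L ≠ 0) : gp N L (L - a) = N * (a - a ^ 2 / (2 * L)) := by
  unfold gp; field_simp; ring

/-- the paraboloid of a tangent ball -/
theorem gp_ball (hN : 0 < NN v x) {L : ℝ} (hL : L ≠ 0) (p : EE n) :
    dd v x + gp (NN v x) L ‖p - L • nu v x‖ =
      dd v (x + p) + (tay (dd v) p x - NN v x / L / 2 * ‖p‖ ^ 2) := by
  rw [tay, ← inner_grad, show ∇ (dd v) x = NN v x • nu v x from (smul_nu hN).symm,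
    real_inner_smul_left, gp, norm_sub_sq_real, real_inner_smul_right, norm_smul, Wd.norm_nu hN,
    real_inner_comm, mul_one, Real.norm_eq_abs, sq_abs]
  field_simp; ring

theorem sub_cen (v : EE n → ℝ) (x p w : EE n) (r : ℝ) :
    x + p - cen v x r w = p - (r - dd v x) • nu v x - r • w := by rw [cen]; abel

/-- the body is inside the ball -/
theorem PP_le_ball (hN : 0 < NN v x) (hr : |dd v x| < r) (hw : w ∈ Core β (nu v x)) (p : EE n) :
    PP β v x r w (x + p) ≤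
      dd v (x + p) + (tay (dd v) p x - NN v x / (r - dd v x) / 2 * ‖p‖ ^ 2) := by
  have hL : 0 < r - dd v x := by linarith [le_abs_self (dd v x)]
  have h0 : 0 ≤ r := (abs_nonneg _).trans hr.le
  rw [← gp_ball hN hL.ne', PP, sub_cen]
  refine add_le_add_right (Wd.gp_anti hN.le hL (norm_nonneg _) ?_) _
  have h1 := norm_add_le (p - (r - dd v x) • nu v x - r • w) (r • w)
  rw [sub_add_cancel, norm_smul, Real.norm_of_nonneg h0] at h1
  nlinarith [hw.1]

theorem fit_of_phi (hv : Sol v) (hN : 0 < NN v x) (hr : |dd v x| < r)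
    (h : phi (dd v) x * (r - dd v x) ≤ NN v x) : Fit β v x r := fun w hw z => by
  have hL : 0 < r - dd v x := by linarith [le_abs_self (dd v x)]
  have h1 := PP_le_ball hN hr hw (z - x)
  have h2 := tay_le hv (z - x) x
  have h3 := mul_le_mul_of_nonneg_right ((le_div_iff₀ hL).2 h) (sq_nonneg ‖z - x‖)
  rw [add_sub_cancel] at h1
  linarith

/-- in the ball sector the body is the ball -/
theorem PP_sector (hN : 0 < NN v x) (hr : |dd v x| < r) (hom : ‖om‖ = 1) (hy : β.η * r ≤ y)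
    (hp : p - (r - dd v x) • nu v x = y • om) : PP β v x r (β.η • om) (x + p) =
      dd v (x + p) + (tay (dd v) p x - NN v x / (r - dd v x) / 2 * ‖p‖ ^ 2) := by
  have hL : 0 < r - dd v x := by linarith [le_abs_self (dd v x)]
  have h0 : 0 ≤ β.η * r := mul_nonneg β.η0.le ((abs_nonneg _).trans hr.le)
  rw [← gp_ball hN hL.ne', PP, sub_cen, hp, smul_smul, ← sub_smul, norm_smul, norm_smul, hom,
    Real.norm_of_nonneg (by linarith), Real.norm_of_nonneg (by linarith)]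
  congr 2; ring

/-- a chord in the ball sector -/
def Sec (β : Bo) (v : EE n → ℝ) (x : EE n) (r : ℝ) (p : EE n) : Prop :=
  β.η * r ≤ ‖p - (r - dd v x) • nu v x‖ ∧
    ⟪p - (r - dd v x) • nu v x, nu v x⟫ ≤ cu1 β * ‖p - (r - dd v x) • nu v x‖

theorem Sec.PP (h : Sec β v x r p) (hN : 0 < NN v x) (hr : |dd v x| < r) :
    ∃ w ∈ Core β (nu v x), PP β v x r w (x + p) =
      dd v (x + p) + (tay (dd v) p x - NN v x / (r - dd v x) / 2 * ‖p‖ ^ 2) := by
  have h0 : 0 < ‖p - (r - dd v x) • nu v x‖ :=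
    (mul_pos β.η0 ((abs_nonneg _).trans_lt hr)).trans_le h.1
  have h1 : ‖‖p - (r - dd v x) • nu v x‖⁻¹ • (p - (r - dd v x) • nu v x)‖ = 1 := by
    rw [norm_smul, norm_inv, norm_norm, inv_mul_cancel₀ h0.ne']
  refine ⟨_, (ball_mem_iff (Wd.norm_nu hN) h1).2 ?_, PP_sector hN hr h1 h.1
    (by rw [smul_smul, mul_inv_cancel₀ h0.ne', one_smul])⟩
  rw [real_inner_smul_left, inv_mul_le_iff₀ h0, mul_comm]
  exact h.2

theorem Sec.tay_le (h : Sec β v x r p) (hN : 0 < NN v x) (hr : |dd v x| < r) (hf : Fit β v x r) :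
    tay (dd v) p x ≤ NN v x / (r - dd v x) / 2 * ‖p‖ ^ 2 := by
  obtain ⟨w, hw, h1⟩ := h.PP hN hr
  linarith [hf w hw (x + p)]

theorem Sec.not_fit (h : Sec β v x r p) (hN : 0 < NN v x) (hr : |dd v x| < r)
    (hp : NN v x / (r - dd v x) < Zf (dd v) p x) : ¬ Fit β v x r := fun hf => by
  have h1 := h.tay_le hN hr hf
  have h2 : 0 < NN v x / (r - dd v x) := div_pos hN (by linarith [le_abs_self (dd v x)])
  by_cases h0 : p = 0
  · simp only [Zf, h0, norm_zero, ne_eq, OfNat.ofNat_ne_zero, not_false_eq_true, zero_pow,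
      div_zero, zero_mul] at hp
    linarith
  · have h3 := pow_pos (norm_pos_iff.2 h0) 2
    rw [Zf, div_mul_eq_mul_div, lt_div_iff₀ h3] at hp
    linarith

/-- short chords are in the ball sector -/
theorem Sm.sec (h : Sm v x r) (hp : ‖p‖ ≤ (r - dd v x) / 2) : Sec β v x r p := by
  have h1 := norm_sub_norm_le ((r - dd v x) • nu v x) p
  rw [norm_smul, h.ax, Real.norm_of_nonneg h.Lpos.le, norm_sub_rev] at h1
  refine ⟨by linarith [(h.eta β).2, h.L1, h.r8], ?_⟩
  have h2 : ⟪p, nu v x⟫ ≤ ‖p‖ := by simpa [h.ax] using real_inner_le_norm p (nu v x)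
  rw [inner_sub_left, real_inner_smul_left, real_inner_self_eq_norm_sq, h.ax]
  have h3 : 0 ≤ cu1 β * ‖p - (r - dd v x) • nu v x‖ :=
    mul_nonneg (by linarith [cu1_ge β]) (norm_nonneg _)
  linarith [h.Lpos]

theorem Sm.phi_le (h : Sm v x r) (hf : Fit β v x r) :
    phi (dd v) x ≤ NN v x / (r - dd v x - β.η * r) := by
  have hL := h.Lpos
  have hL' : 0 < r - dd v x - β.η * r := by linarith [(h.eta β).2, h.L1, h.r8]
  refine (phi_le_iff h.sol (div_pos h.Npos hL').le).2 fun p => ?_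
  have h1 := hf _ (neg_mem β h.ax) (x + p)
  have h2 := gp_ball h.Npos hL'.ne' p
  rw [PP, sub_cen, show p - (r - dd v x) • nu v x - r • β.η • -nu v x =
    p - (r - dd v x - β.η * r) • nu v x by
      rw [sub_smul (r - dd v x), smul_neg, smul_neg, smul_smul, mul_comm]; abel] at h1
  set a := r - dd v x - β.η * r - ‖p - (r - dd v x - β.η * r) • nu v x‖ with ha
  rw [show ‖p - (r - dd v x - β.η * r) • nu v x‖ = r - dd v x - β.η * r - a by ring] at h1 h2
  rw [show r - dd v x - β.η * r - a + β.η * r = r - dd v x - a by ring, gp_eq _ _ hL.ne'] at h1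
  rw [gp_eq _ _ hL'.ne'] at h2
  have h3 : a ^ 2 / (2 * (r - dd v x)) ≤ a ^ 2 / (2 * (r - dd v x - β.η * r)) :=
    div_le_div_of_nonneg_left (sq_nonneg a) (by positivity) (by linarith [(h.eta β).1])
  nlinarith [h.Npos]

theorem Sm.phi_mul_le (h : Sm v x r) (hf : Fit β v x r) : phi (dd v) x * r ≤ 2 := by
  have h1 := h.phi_le hf
  have h2 := (h.eta β).2
  rw [le_div_iff₀ (by linarith [h.L1, h.r8])] at h1
  nlinarith [phi_nonneg h.sol x, NN_le_one h.sol x, h.L1, h.r8]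

/-! ### `rt` -/

theorem bdd_rt (β : Bo) (v : EE n → ℝ) (ρm : ℝ) (x : EE n) :
    BddBelow ({r | |dd v x| < r ∧ ¬ Fit β v x r} ∪ {ρm}) := ⟨min 0 ρm, by
  rintro s (hs | hs)
  · exact (min_le_left _ _).trans ((abs_nonneg _).trans hs.1.le)
  · exact (min_le_right _ _).trans_eq hs.symm⟩

theorem rt_le_rm (β : Bo) (v : EE n → ℝ) (ρm : ℝ) (x : EE n) : rt β v ρm x ≤ ρm :=
  csInf_le (bdd_rt β v ρm x) (Or.inr rfl)

theorem le_rt {a : ℝ} (h1 : a ≤ ρm) (h2 : ∀ r, |dd v x| < r → r < a → Fit β v x r) :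
    a ≤ rt β v ρm x := le_csInf ⟨ρm, Or.inr rfl⟩ (by
  rintro s (hs | hs)
  · exact not_lt.1 fun h => hs.2 (h2 s hs.1 h)
  · exact h1.trans_eq hs.symm)

theorem continuousAt_PP (hr : r ≠ dd v x) (w z : EE n) :
    ContinuousAt (fun q : ℝ × EE n × EE n => PP β v x q.1 q.2.1 q.2.2) (r, w, z) := by
  unfold PP gp cen
  exact continuousAt_const.add (ContinuousAt.div (by fun_prop) (by fun_prop)
    (mul_ne_zero two_ne_zero (sub_ne_zero.2 hr)))

theorem fit_of_le_rt (h1 : |dd v x| < r) (h2 : r ≤ rt β v ρm x) : Fit β v x r := by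
  have h3 : ∀ s, |dd v x| < s → s < r → Fit β v x s := fun s h4 h5 =>
    of_not_not fun h => absurd (Wd.rt_le (ρm := ρm) h4 h) (not_le.2 (h5.trans_le h2))
  intro w hw z
  have h4 : Tendsto (fun s : ℝ => PP β v x s w z) (𝓝[<] r) (𝓝 (PP β v x r w z)) :=
    (ContinuousAt.comp (f := fun s : ℝ => (s, w, z))
      (continuousAt_PP ((le_abs_self _).trans_lt h1).ne' w z) (by fun_prop)).tendsto.mono_left
        nhdsWithin_le_nhds
  exact le_of_tendsto h4 (mem_of_superset (Ioo_mem_nhdsLT h1) fun s hs => h3 s hs.1 hs.2 w hw z)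

/-! ### contacts -/

/-- existence of a degenerate or a far contact -/
theorem exists_contact (h : Sm v x (rt β v ρm x)) (hρ : rt β v ρm x < ρm) :
    (∃ e, Deg v (NN v x / (rt β v ρm x - dd v x)) e x) ∨
      ∃ w ∈ Core β (nu v x), ∃ z, z ≠ x ∧ dd v z = PP β v x (rt β v ρm x) w z := by
  have hf : Fit β v x (rt β v ρm x) := fit_of_le_rt h.lt le_rfl
  obtain ⟨u, -, h1, h2⟩ := exists_seq_tendsto_sInf ⟨ρm, Or.inr rfl⟩ (bdd_rt β v ρm x)
  change Tendsto u atTop (𝓝 (rt β v ρm x)) at h1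
  set r := rt β v ρm x
  have hc : 0 < NN v x / (r - dd v x) := div_pos h.Npos h.Lpos
  have h3 : Tendsto (fun j => NN v x / (u j - dd v x)) atTop (𝓝 (NN v x / (r - dd v x))) :=
    tendsto_const_nhds.div (h1.sub_const _) h.Lpos.ne'
  have h4 : ∀ j, ∃ q : EE n × EE n, u j < ρm → q.1 ∈ Core β (nu v x) ∧
      dd v (x + q.2) < PP β v x (u j) q.1 (x + q.2) ∧ q.2 ≠ 0 ∧
      NN v x / (u j - dd v x) < Zf (dd v) q.2 x := fun j => by
    rcases h2 j with hj | hj
    · have h5 := hj.2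
      simp only [Fit, not_forall, not_le] at h5
      obtain ⟨w, hw, z, hz⟩ := h5
      have h6 := PP_le_ball h.Npos hj.1 hw (z - x)
      rw [add_sub_cancel] at h6
      have h7 : z - x ≠ 0 := fun h0 => by
        rw [h0] at h6; simp [tay] at h6; linarith
      refine ⟨(w, z - x), fun _ => ⟨hw, by simpa using hz, h7, ?_⟩⟩
      rw [Zf, div_mul_eq_mul_div, lt_div_iff₀ (pow_pos (norm_pos_iff.2 h7) 2)]
      linarith
    · exact ⟨0, fun h => absurd hj h.ne⟩
  choose q hq using h4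
  have h5 : ∀ᶠ j in atTop, u j < ρm := h1.eventually (gt_mem_nhds hρ)
  obtain ⟨⟨w, a, e⟩, ⟨hw, -, he⟩, σ, hσ, h6⟩ := ((isCompact_core β (nu v x)).prod
    ((isCompact_closedBall (0 : EE n) (8 / (NN v x / (r - dd v x)))).prod
      (isCompact_sphere (0 : EE n) 1))).tendsto_subseq'
    (x := fun j => ((q j).1, (q j).2, ‖(q j).2‖⁻¹ • (q j).2))
    ((h5.and (h3.eventually (lt_mem_nhds (half_lt_self hc)))).mono fun j hj => ⟨(hq j hj.1).1, by
      have h6 := (hj.2.trans (hq j hj.1).2.2.2).trans_le (Zf_le_div h.sol _ x)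
      rw [lt_div_iff₀ (norm_pos_iff.2 (hq j hj.1).2.2.1)] at h6
      rw [mem_closedBall_zero_iff, le_div_iff₀ hc]
      linarith, by simp [norm_smul, (hq j hj.1).2.2.1]⟩).frequently
  have h7 : Tendsto (fun j => (q (σ j)).1) atTop (𝓝 w) := (continuous_fst.tendsto _).comp h6
  have h8 : Tendsto (fun j => (q (σ j)).2) atTop (𝓝 a) :=
    (continuous_snd.fst.tendsto _).comp h6
  have h9 : Tendsto (fun j => ‖(q (σ j)).2‖⁻¹ • (q (σ j)).2) atTop (𝓝 e) :=
    (continuous_snd.snd.tendsto _).comp h6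
  have h10 := hσ.tendsto_atTop.eventually h5
  by_cases ha : a = 0
  · have hl : ∀ᶠ y in 𝓝 (0 : EE n), tay (dd v) y x ≤ NN v x / (r - dd v x) / 2 * ‖y‖ ^ 2 :=
      mem_of_superset (closedBall_mem_nhds 0 (half_pos h.Lpos)) fun y hy =>
        (h.sec (mem_closedBall_zero_iff.1 hy)).tay_le h.Npos h.lt hf
    have he' : ‖e‖ = 1 := by simpa using he
    refine Or.inl ⟨e, he', le_antisymm ?_ ?_, hl⟩
    · have b1 := ((tendsto_Zf h.sol.dd_sm x).comp (ha ▸ h8)).sub (h3.comp hσ.tendsto_atTop)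
      rw [zero_sub] at b1
      refine le_of_tendsto_of_tendsto (((hb (dd v) x).continuous₂.tendsto (e, e)).comp
        (h9.prodMk_nhds h9)) b1 (h10.mono fun j hj => ?_)
      have b2 := (hq _ hj).2.2.2
      simp only [Function.comp_apply, Function.uncurry_apply_pair, map_smul, smul_apply, smul_eq_mul]
      rw [show ‖(q (σ j)).2‖⁻¹ * (‖(q (σ j)).2‖⁻¹ * hb (dd v) x (q (σ j)).2 (q (σ j)).2) =
        hb (dd v) x (q (σ j)).2 (q (σ j)).2 / ‖(q (σ j)).2‖ ^ 2 by ring]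
      linarith
    · have b1 := hb_add_nonneg' h.sol.dd_sm hl e
      rw [he'] at b1
      linarith
  · refine Or.inr ⟨w, hw, x + a, by simpa using ha, le_antisymm ?_ (hf w hw _)⟩
    exact le_of_tendsto_of_tendsto ((h.sol.dd_sm.continuous.tendsto _).comp (h8.const_add x))
      ((continuousAt_PP (sub_pos.1 h.Lpos).ne' w (x + a)).tendsto.comp
        ((h1.comp hσ.tendsto_atTop).prodMk_nhds (h7.prodMk_nhds (h8.const_add x))))
      (h10.mono fun j hj => (hq _ hj).2.1.le)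

/-- **NDC**: no deep contact -/
theorem ndc (n : ℕ) {ε : ℝ} (hε : 0 < ε) (hε1 : ε ≤ 1) : ∃ M : ℝ, ∀ (β : Bo) (v : EE n → ℝ)
    (x w z : EE n) (r : ℝ), Sm v x r → |dd v x| ≤ ε ^ 2 / 80 * r → M ≤ r → Fit β v x r →
      w ∈ Core β (nu v x) → dd v z = PP β v x r w z →
      (1 - ε) * (r - dd v x) ≤ ‖z - cen v x r w‖ + β.η * r := by
  obtain ⟨C, hC, H⟩ := ball_dd n
  refine ⟨8 * (2 + C + 2 * C / ε ^ 2) / ε ^ 2 + 1, fun β v x w z r h hd hM hf hw he =>
    not_lt.1 fun hy => ?_⟩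
  have hε2 := pow_pos hε 2
  have hL := h.Lpos
  have hL1 := h.L1
  have hr := h.r8
  have hη := h.eta β
  have hd0 := abs_nonneg (dd v x)
  have hM' : 8 * (2 + C + 2 * C / ε ^ 2) < ε ^ 2 * r := by
    rw [← div_lt_iff₀' hε2]; linarith
  have hC2 : 0 ≤ 2 * C / ε ^ 2 := by positivity
  have hεε : ε ^ 2 * r ≤ ε * r := mul_le_mul_of_nonneg_right (by nlinarith) (by linarith)
  have hεL : 7 / 8 * (ε * r) ≤ ε * (r - dd v x) := by nlinarith
  have hεL2 : 7 / 8 * (ε ^ 2 * r) ≤ ε ^ 2 * (r - dd v x) := by nlinarith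
  set L := r - dd v x with hLd
  have h1 : ∀ z' ∈ ball (cen v x r w) (L - β.η * r - (4 * |dd v x| + 1)), 0 < v z' := fun z' hz' => by
    have a1 := hf w hw z'
    have a2 := Wd.gp_anti (y' := L - (4 * |dd v x| + 1)) h.Npos.le hL
      (add_nonneg (norm_nonneg (z' - cen v x r w)) hη.1)
      (by linarith [mem_ball_iff_norm.1 hz'])
    rw [gp_eq _ _ hL.ne'] at a2
    have a3 : (4 * |dd v x| + 1) ^ 2 / (2 * L) ≤ (4 * |dd v x| + 1) / 2 := by
      rw [div_le_div_iff₀ (by positivity) two_pos]; nlinarith [h.d]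
    have a4 : 0 < dd v z' := by
      rw [PP] at a1
      nlinarith [h.N, neg_abs_le (dd v x)]
    refine lt_of_not_ge fun a5 => ?_
    rcases a5.lt_or_eq with a5 | a5
    · linarith [h.sol.dd_lt_zero a5]
    · simp [dd, a5] at a4
  have h2 := H v h.sol _ z _ h1 (by nlinarith)
  set y := ‖z - cen v x r w‖ with hyd
  have hy0 : 0 ≤ y := norm_nonneg _
  have h3 : √(y ^ 2 + C * (L - β.η * r - (4 * |dd v x| + 1))) ≤
      y + (ε ^ 2 * L / 8 + 2 * C / ε ^ 2) := by
    refine Real.sqrt_le_iff.2 ⟨by positivity, ?_⟩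
    have a1 : C * L = 4 * (ε ^ 2 * L / 8) * (2 * C / ε ^ 2) := by field_simp; ring
    have a2 : 0 ≤ y * (ε ^ 2 * L / 8 + 2 * C / ε ^ 2) := by positivity
    nlinarith [sq_nonneg (ε ^ 2 * L / 8 - 2 * C / ε ^ 2)]
  rw [PP, ← hyd, ← hLd, show y + β.η * r = L - (L - (y + β.η * r)) by ring, gp_eq _ _ hL.ne'] at he
  set a := L - (y + β.η * r) with ha
  have h4 : ε * L ≤ a := by linarith
  have h5 : a ^ 2 / (2 * L) ≤ a := by
    rw [div_le_iff₀ (by positivity)]; nlinarith [mul_pos hε hL]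
  have h6 : ε ^ 2 * L / 2 ≤ a ^ 2 / (2 * L) := by
    rw [div_le_div_iff₀ two_pos (by positivity)]
    nlinarith [pow_le_pow_left₀ (mul_pos hε hL).le h4 2]
  have h7 := mul_le_mul_of_nonneg_right (NN_le_one h.sol x) (sub_nonneg.2 h5)
  linarith [le_abs_self (dd v x)]

end

end Crest.Agent.N067.M.X0
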