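import Crest.Agent.N067.M.Defs

/-!
# Row 67, block X0 (helper18): geometry of the lens `Core`
-/

set_option autoImplicit false

open MeasureTheory Laplacian InnerProductSpace Topology Filter Set Metric
open scoped RealInnerProductSpace Gradient ContDiff

namespace Crest.Agent.N067.M.X0

open Crest.Agent.R077

noncomputable section

variable {n : ℕ} {β : Bo} {ν w om : EE n}

/-- radius of the cap of the lens -/
def ga (β : Bo) : ℝ := 3 + β.η - β.h
/-- `cos u₁`: the directions with `⟪om, ν⟫ ≤ cos u₁` are the ball sector -/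
def cu1 (β : Bo) : ℝ := (ga β ^ 2 - 9 - β.η ^ 2) / (6 * β.η)
/-- `cos u₀`: the directions with `cos u₀ ≤ ⟪om, ν⟫` are the cap sector -/
def cu0 (β : Bo) : ℝ := (ga β ^ 2 + 9 - β.η ^ 2) / (6 * ga β)
/-- tangential part -/
def tan (ν a : EE n) : EE n := a - ⟪a, ν⟫ • ν

theorem ga_ge (β : Bo) : 3 < ga β := by
  have := β.h1; have := β.η0; rw [ga]; linarith

theorem ga_le (β : Bo) : ga β ≤ 3 + β.η := by
  have := β.h0; rw [ga]; linarith

theorem one_sub_cu0 (β : Bo) : 1 - cu0 β = β.h * (2 * β.η - β.h) / (6 * ga β) := by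
  have := ga_ge β
  rw [cu0, eq_div_iff (by positivity), sub_mul, div_mul_cancel₀ _ (by positivity), ga]; ring

theorem one_sub_cu1 (β : Bo) :
    1 - cu1 β = β.h * (6 + 2 * β.η - β.h) / (6 * β.η) := by
  have := β.η0
  rw [cu1, eq_div_iff (by positivity), sub_mul, div_mul_cancel₀ _ (by positivity), ga]; ring

theorem cu0_lt (β : Bo) : β.η * β.h / 19 ≤ 1 - cu0 β := by
  have := ga_ge β; have := ga_le β; have := β.η0; have := β.η1; have := β.h0; have := β.h1
  have h : 0 < β.η * β.h := by positivity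
  rw [one_sub_cu0, div_le_div_iff₀ (by positivity) (by positivity)]
  nlinarith

theorem cu1_ge (β : Bo) : 1 - cu1 β ≤ 2 / 10000 := by
  have := β.η0; have := β.η1; have := β.h0; have := β.h1
  rw [one_sub_cu1, div_le_iff₀ (by positivity)]
  nlinarith

theorem cu1_lt (β : Bo) : β.h / β.η ≤ 1 - cu1 β := by
  have := β.η0; have := β.η1; have := β.h0; have := β.h1
  rw [one_sub_cu1, div_le_div_iff₀ (by positivity) (by positivity)]
  have h : 0 < β.η * β.h := by positivity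
  nlinarith

theorem norm_add3_sq (hν : ‖ν‖ = 1) (w : EE n) :
    ‖w + (3 : ℝ) • ν‖ ^ 2 = ‖w‖ ^ 2 + 6 * ⟪w, ν⟫ + 9 := by
  rw [norm_add_sq_real, real_inner_smul_right, norm_smul, hν]; norm_num; ring

theorem core_iff (hν : ‖ν‖ = 1) :
    w ∈ Core β ν ↔ ‖w‖ ≤ β.η ∧ ‖w‖ ^ 2 + 6 * ⟪w, ν⟫ + 9 ≤ ga β ^ 2 := by
  rw [← norm_add3_sq hν, sq_le_sq₀ (norm_nonneg _) (by linarith [ga_ge β])]; rfl

theorem core_eq (β : Bo) (ν : EE n) :
    Core β ν = closedBall 0 β.η ∩ closedBall (-((3 : ℝ) • ν)) (ga β) := by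
  ext w; simp [Core, ga, dist_eq_norm]

theorem convex_core (β : Bo) (ν : EE n) : Convex ℝ (Core β ν) :=
  core_eq β ν ▸ (convex_closedBall _ _).inter (convex_closedBall _ _)

theorem isCompact_core (β : Bo) (ν : EE n) : IsCompact (Core β ν) :=
  core_eq β ν ▸ (isCompact_closedBall _ _).inter_right isClosed_closedBall

theorem ball_mem_iff (hν : ‖ν‖ = 1) (hom : ‖om‖ = 1) :
    β.η • om ∈ Core β ν ↔ ⟪om, ν⟫ ≤ cu1 β := by
  have := β.η0
  rw [core_iff hν, norm_smul, hom, real_inner_smul_left, Real.norm_of_nonneg this.le, cu1,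
    le_div_iff₀ (by positivity)]
  constructor
  · exact fun h => by linarith [h.2]
  · exact fun h => ⟨by linarith, by linarith⟩

theorem neg_mem (β : Bo) (hν : ‖ν‖ = 1) : β.η • -ν ∈ Core β ν :=
  (ball_mem_iff hν (by simpa using hν)).2 (by
    rw [inner_neg_left, real_inner_self_eq_norm_sq, hν]; linarith [cu1_ge β])

theorem cap_mem_iff (hν : ‖ν‖ = 1) (hom : ‖om‖ = 1) :
    ga β • om - (3 : ℝ) • ν ∈ Core β ν ↔ cu0 β ≤ ⟪om, ν⟫ := by
  have := ga_ge β
  have h1 : ‖ga β • om - (3 : ℝ) • ν‖ ^ 2 = ga β ^ 2 - 6 * ga β * ⟪om, ν⟫ + 9 := by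
    rw [norm_sub_sq_real, real_inner_smul_right, real_inner_smul_left, norm_smul, norm_smul, hν,
      hom, Real.norm_of_nonneg (by linarith)]; norm_num; ring
  rw [Core, mem_ofPred_eq, sub_add_cancel, norm_smul, hom, Real.norm_of_nonneg (by linarith),
    ← sq_le_sq₀ (norm_nonneg _) β.η0.le, h1, cu0, div_le_iff₀ (by positivity)]
  constructor
  · exact fun h => by linarith [h.1]
  · exact fun h => ⟨by linarith, by rw [ga, mul_one]⟩

theorem inner_tan (hν : ‖ν‖ = 1) (a : EE n) : ⟪tan ν a, ν⟫ = 0 := by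
  rw [tan, inner_sub_left, real_inner_smul_left, real_inner_self_eq_norm_sq, hν]; ring

theorem inner_tan_tan (hν : ‖ν‖ = 1) (a b : EE n) :
    ⟪tan ν a, tan ν b⟫ = ⟪a, b⟫ - ⟪a, ν⟫ * ⟪b, ν⟫ := by
  rw [tan, tan]
  simp only [inner_sub_left, inner_sub_right, real_inner_smul_left, real_inner_smul_right,
    real_inner_self_eq_norm_sq, hν, real_inner_comm ν b]
  ring

theorem norm_tan_sq (hν : ‖ν‖ = 1) (a : EE n) : ‖tan ν a‖ ^ 2 = ‖a‖ ^ 2 - ⟪a, ν⟫ ^ 2 := by
  rw [← real_inner_self_eq_norm_sq, inner_tan_tan hν, real_inner_self_eq_norm_sq]; ring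

theorem norm_tan_le (hν : ‖ν‖ = 1) (a : EE n) : ‖tan ν a‖ ≤ ‖a‖ := by
  rw [← sq_le_sq₀ (norm_nonneg _) (norm_nonneg _), norm_tan_sq hν]; nlinarith [sq_nonneg ⟪a, ν⟫]

theorem add_tan (ν a : EE n) : ⟪a, ν⟫ • ν + tan ν a = a := by rw [tan]; abel

theorem tan_tan (hν : ‖ν‖ = 1) (a : EE n) : tan ν (tan ν a) = tan ν a := by
  rw [tan, inner_tan hν, zero_smul, sub_zero]

theorem norm_comb_sq (hν : ‖ν‖ = 1) (g : ℝ) (τ : EE n) :
    ‖g • ν + tan ν τ‖ ^ 2 = g ^ 2 + ‖tan ν τ‖ ^ 2 := by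
  rw [norm_add_sq_real, real_inner_smul_left, real_inner_comm, inner_tan hν, norm_smul, hν]
  simp

theorem inner_comb (hν : ‖ν‖ = 1) (g : ℝ) (τ : EE n) : ⟪g • ν + tan ν τ, ν⟫ = g := by
  rw [inner_add_left, inner_tan hν, real_inner_smul_left, real_inner_self_eq_norm_sq, hν]; ring

/-- the parameters `(g, τ)` of the points of the lens; they do not depend on the axis -/
def Par (β : Bo) (n : ℕ) : Set (ℝ × EE n) :=
  {q | q.1 ^ 2 + ‖q.2‖ ^ 2 ≤ β.η ^ 2 ∧ q.1 ^ 2 + ‖q.2‖ ^ 2 + 6 * q.1 + 9 ≤ ga β ^ 2}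

theorem Par.mem {q : ℝ × EE n} (h : q ∈ Par β n) (hν : ‖ν‖ = 1) :
    q.1 • ν + tan ν q.2 ∈ Core β ν := by
  have h1 := pow_le_pow_left₀ (norm_nonneg _) (norm_tan_le hν q.2) 2
  rw [core_iff hν, ← sq_le_sq₀ (norm_nonneg _) β.η0.le, norm_comb_sq hν, inner_comb hν]
  exact ⟨by linarith [h.1], by linarith [h.2]⟩

theorem par_of_mem (hν : ‖ν‖ = 1) (h : w ∈ Core β ν) : (⟪w, ν⟫, tan ν w) ∈ Par β n := by
  rw [core_iff hν, ← sq_le_sq₀ (norm_nonneg _) β.η0.le] at h
  simp only [Par, mem_ofPred_eq, norm_tan_sq hν]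
  exact ⟨by linarith [h.1], by linarith [h.2]⟩

theorem isCompact_par (β : Bo) (n : ℕ) : IsCompact (Par β n) := by
  refine (isCompact_closedBall (0 : ℝ × EE n) β.η).of_isClosed_subset
    (IsClosed.and (isClosed_le (by fun_prop) (by fun_prop)) (isClosed_le (by fun_prop) (by fun_prop)))
    fun q hq => mem_closedBall_zero_iff.2 (max_le ?_ ?_)
  · rw [← sq_le_sq₀ (norm_nonneg _) β.η0.le, Real.norm_eq_abs, sq_abs]
    linarith [hq.1, sq_nonneg ‖q.2‖]
  · rw [← sq_le_sq₀ (norm_nonneg _) β.η0.le]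
    linarith [hq.1, sq_nonneg q.1]

/-- `om` is in the normal cone of the lens at `w` -/
structure Cone (β : Bo) (ν w om : EE n) : Prop where
  ax : ‖ν‖ = 1
  mem : w ∈ Core β ν
  unit : ‖om‖ = 1
  le : ∀ w' ∈ Core β ν, ⟪om, w' - w⟫ ≤ 0

theorem eq_of_le_inner {a c : EE n} {ρ : ℝ} (hom : ‖om‖ = 1) (h1 : ‖a - c‖ ≤ ρ)
    (h2 : ρ ≤ ⟪om, a - c⟫) : a = c + ρ • om := by
  have h0 : 0 ≤ ρ := (norm_nonneg _).trans h1
  have h3 : ‖(a - c) - ρ • om‖ ^ 2 ≤ 0 := by
    rw [norm_sub_sq_real, real_inner_smul_right, norm_smul, hom, real_inner_comm,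
      Real.norm_of_nonneg h0]
    nlinarith [pow_le_pow_left₀ (norm_nonneg _) h1 2]
  have h4 := norm_eq_zero.1 (pow_eq_zero_iff two_ne_zero |>.1 (h3.antisymm (sq_nonneg _)))
  rw [sub_eq_zero, sub_eq_iff_eq_add'] at h4
  exact h4

theorem Cone.bl (h : Cone β ν w om) (hc : ⟪om, ν⟫ ≤ cu1 β) : w = β.η • om := by
  have h1 := h.le _ ((ball_mem_iff h.ax h.unit).2 hc)
  rw [inner_sub_right, real_inner_smul_right, real_inner_self_eq_norm_sq, h.unit] at h1
  simpa using eq_of_le_inner (a := w) (c := 0) h.unit (by simpa using h.mem.1)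
    (by rw [sub_zero]; linarith)

theorem Cone.cap (h : Cone β ν w om) (hc : cu0 β ≤ ⟪om, ν⟫) :
    w = ga β • om - (3 : ℝ) • ν := by
  have h1 := h.le _ ((cap_mem_iff h.ax h.unit).2 hc)
  rw [sub_sub, inner_sub_right, real_inner_smul_right, real_inner_self_eq_norm_sq, h.unit,
    add_comm] at h1
  have h2 := eq_of_le_inner (a := w) (c := -((3 : ℝ) • ν)) (ρ := ga β) h.unit
    (by simpa [ga] using h.mem.2) (by rw [sub_neg_eq_add]; linarith)
  rw [h2]; abel

/-- a point which minimises a linear form on the intersection of two balls and is interior to one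
of them minimises it on the other one -/
theorem cone_inter {A B : Set (EE n)} (hB : Convex ℝ B) (hA : A ∈ 𝓝 w) (hw : w ∈ B)
    (h : ∀ w' ∈ A ∩ B, ⟪om, w' - w⟫ ≤ 0) : ∀ w' ∈ B, ⟪om, w' - w⟫ ≤ 0 := fun w' hw' => by
  have h1 : Tendsto (fun s : ℝ => w + s • (w' - w)) (𝓝[>] 0) (𝓝 w) :=
    (Continuous.tendsto' (by fun_prop) 0 w (by simp)).mono_left nhdsWithin_le_nhds
  obtain ⟨s, h2, h3⟩ := ((h1.eventually hA).and (Ioo_mem_nhdsGT zero_lt_one)).exists
  have h4 := h _ ⟨h2, hB.add_smul_sub_mem hw hw' ⟨h3.1.le, h3.2.le⟩⟩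
  rw [add_sub_cancel_left, real_inner_smul_right] at h4
  by_contra h5
  exact absurd h4 (not_le.2 (mul_pos h3.1 (not_le.1 h5)))

theorem Cone.par (h : Cone β ν w om) : ‖tan ν w‖ • tan ν om = ‖tan ν om‖ • tan ν w := by
  by_cases h0 : tan ν om = 0
  · simp [h0]
  have h1 := norm_pos_iff.2 h0
  have h2 : (⟪w, ν⟫, (‖tan ν w‖ / ‖tan ν om‖) • tan ν om) ∈ Par β n := by
    have := par_of_mem h.ax h.mem
    simp only [Par, mem_ofPred_eq, norm_smul, norm_div, norm_norm, div_mul_cancel₀ _ h1.ne'] at this ⊢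
    exact this
  have h3 := h.le _ (Par.mem h2 h.ax)
  have h4 : tan ν ((‖tan ν w‖ / ‖tan ν om‖) • tan ν om) = (‖tan ν w‖ / ‖tan ν om‖) • tan ν om := by
    rw [tan, real_inner_smul_left, inner_tan h.ax]; simp
  have h5 : ∀ a, ⟪om, tan ν a⟫ = ⟪tan ν om, tan ν a⟫ := fun a => by
    rw [inner_tan_tan h.ax, tan, inner_sub_right, real_inner_smul_right]; ring
  simp only [h4] at h3
  rw [show ∀ a : EE n, ⟪w, ν⟫ • ν + a - w = a - tan ν w from fun a => by rw [tan]; abel,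
    inner_sub_right, real_inner_smul_right, h5, h5,
    real_inner_self_eq_norm_sq, sq, ← mul_assoc, div_mul_cancel₀ _ h1.ne'] at h3
  exact inner_eq_norm_mul_iff_real.1 ((real_inner_le_norm _ _).antisymm (by linarith))

/-- on the rim -/
structure Rim (β : Bo) (ν w om : EE n) : Prop where
  n1 : ‖w‖ = β.η
  n2 : ‖w + (3 : ℝ) • ν‖ = ga β
  ge : cu1 β ≤ ⟪om, ν⟫
  le : ⟪om, ν⟫ ≤ cu0 β
  ax : ⟪w, ν⟫ = β.η * cu1 β

/-- **trichotomy**: open ball sector, open cap sector, rim -/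
theorem Cone.tri (h : Cone β ν w om) : (⟪om, ν⟫ < cu1 β ∧ w = β.η • om) ∨
    (cu0 β < ⟪om, ν⟫ ∧ w = ga β • om - (3 : ℝ) • ν) ∨ Rim β ν w om := by
  rcases lt_or_ge ⟪om, ν⟫ (cu1 β) with h1 | h1
  · exact Or.inl ⟨h1, h.bl h1.le⟩
  rcases lt_or_ge (cu0 β) ⟪om, ν⟫ with h2 | h2
  · exact Or.inr (Or.inl ⟨h2, h.cap h2.le⟩)
  have hη := β.η0
  have hg := ga_ge β
  have hle := h.le
  rw [core_eq] at hle
  have a1 : ‖w + (3 : ℝ) • ν‖ = ga β := by
    refine h.mem.2.antisymm (not_lt.1 fun h3 => ?_)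
    have h4 := cone_inter (convex_closedBall 0 β.η) (closedBall_mem_nhds_of_mem
      (show w ∈ ball (-((3 : ℝ) • ν)) (ga β) by simpa [dist_eq_norm, ga] using h3))
      (by simpa using h.mem.1) (fun w' hw' => hle w' ⟨hw'.2, hw'.1⟩) (β.η • om)
      (by simp [norm_smul, h.unit, abs_of_pos hη])
    rw [inner_sub_right, real_inner_smul_right, real_inner_self_eq_norm_sq, h.unit] at h4
    have h5 := eq_of_le_inner (a := w) (c := 0) h.unit (by simpa using h.mem.1)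
      (by rw [sub_zero]; linarith)
    have h6 := pow_lt_pow_left₀ h3 (norm_nonneg _) two_ne_zero
    rw [norm_add3_sq h.ax, h5, zero_add, norm_smul, h.unit, real_inner_smul_left,
      Real.norm_of_nonneg hη.le] at h6
    rw [cu1, div_le_iff₀ (by positivity)] at h1
    change _ < ga β ^ 2 at h6
    linarith
  have a2 : ‖w‖ = β.η := by
    refine h.mem.1.antisymm (not_lt.1 fun h3 => ?_)
    have h4 := cone_inter (convex_closedBall (-((3 : ℝ) • ν)) (ga β)) (closedBall_mem_nhds_of_mem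
      (show w ∈ ball 0 β.η by simpa using h3)) (by simpa [dist_eq_norm] using a1.le) hle
      (ga β • om - (3 : ℝ) • ν) (by simp [dist_eq_norm, norm_smul, h.unit, abs_of_pos (by linarith : 0 < ga β)])
    rw [sub_sub, inner_sub_right, real_inner_smul_right, real_inner_self_eq_norm_sq, h.unit,
      add_comm] at h4
    have h5 := eq_of_le_inner (a := w) (c := -((3 : ℝ) • ν)) (ρ := ga β) h.unit
      (by simpa using a1.le) (by rw [sub_neg_eq_add]; linarith)
    have h6 := pow_lt_pow_left₀ h3 (norm_nonneg _) two_ne_zero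
    rw [h5, norm_add_sq_real, inner_neg_left, real_inner_smul_left, real_inner_smul_right,
      norm_neg, norm_smul, norm_smul, h.unit, h.ax, Real.norm_of_nonneg (by linarith : 0 ≤ ga β),
      real_inner_comm] at h6
    rw [cu0, le_div_iff₀ (by positivity)] at h2
    norm_num at h6
    linarith
  refine Or.inr (Or.inr ⟨a2, a1, h1, h2, ?_⟩)
  have h3 := norm_add3_sq h.ax w
  rw [a1, a2] at h3
  rw [cu1, h3]; field_simp; ring

/-- the field `cap` of `Ct` -/
theorem Cone.cap' (h : Cone β ν w om) (hc : ‖om - ν‖ < √(β.η * β.h) / 10) :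
    cu0 β < ⟪om, ν⟫ ∧ w = (3 + β.η - β.h) • om - (3 : ℝ) • ν := by
  have h0 : 0 < β.η * β.h := mul_pos β.η0 β.h0
  have h1 := pow_lt_pow_left₀ hc (norm_nonneg _) two_ne_zero
  rw [norm_sub_sq_real, h.unit, h.ax, div_pow, Real.sq_sqrt h0.le] at h1
  have h2 : cu0 β < ⟪om, ν⟫ := by linarith [cu0_lt β]
  exact ⟨h2, h.cap h2.le⟩

/-- transversality -/
theorem Cone.trans (h : Cone β ν w om) : -(β.η * ⟪om, ν⟫) ≤ ⟪om, w⟫ := by
  have h1 := h.le _ (neg_mem β h.ax)
  rw [inner_sub_right, real_inner_smul_right, inner_neg_right] at h1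
  linarith

/-- the field `key` of `Ct` -/
theorem Cone.key (h : Cone β ν w om) : β.η * (1 - ⟪om, ν⟫) ≤ ⟪w, om - ν⟫ := by
  have hη := β.η0
  have hc : ⟪om, ν⟫ ≤ 1 := by simpa [h.unit, h.ax] using real_inner_le_norm om ν
  rw [inner_sub_right]
  rcases h.tri with h1 | h1 | h1
  · rw [h1.2, real_inner_smul_left, real_inner_smul_left, real_inner_self_eq_norm_sq, h.unit]
    linarith
  · rw [h1.2]
    simp only [inner_sub_left, real_inner_smul_left, real_inner_self_eq_norm_sq, h.unit, h.ax,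
      real_inner_comm om ν]
    nlinarith [ga_ge β, β.η1]
  · have h2 := inner_eq_norm_mul_iff_real.2 h.par
    have h3 := norm_tan_sq h.ax w
    have h4 := norm_tan_sq h.ax om
    have h5 := cu1_ge β
    rw [inner_tan_tan h.ax, real_inner_comm w om, h1.ax] at h2
    rw [h1.n1, h1.ax] at h3
    rw [h.unit] at h4
    rw [h1.ax]
    have h6 : β.η * ((1 - ⟪om, ν⟫) * (1 + cu1 β)) ≤ ‖tan ν om‖ * ‖tan ν w‖ := by
      rw [← sq_le_sq₀ (mul_nonneg hη.le (mul_nonneg (by linarith) (by linarith))) (by positivity),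
        mul_pow ‖_‖, h3, h4]
      have h7 : 0 ≤ β.η ^ 2 * ((1 - ⟪om, ν⟫) * (1 + cu1 β)) * (⟪om, ν⟫ - cu1 β) :=
        mul_nonneg (mul_nonneg (sq_nonneg _) (mul_nonneg (by linarith) (by linarith)))
          (by linarith [h1.ge])
      nlinarith
    nlinarith

end

end Crest.Agent.N067.M.X0
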