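import Crest.Agent.N067.X0.Val
import Crest.Agent.N067.V.Phi4

/-!
# Row 67, block X0 (helper18): implicit paraboloids, regularity of `N`, `ν`
-/

set_option autoImplicit false

open MeasureTheory Laplacian InnerProductSpace Topology Filter Set Metric
open scoped RealInnerProductSpace Gradient ContDiff

namespace Crest.Agent.N067.M.X0

open Crest.Agent.R077 Crest.Agent.N067.V

noncomputable section

variable {n : ℕ} {β : Bo} {v : EE n → ℝ} {x z w om p : EE n} {r y ρm : ℝ}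

/-- paraboloids in the region `Ψ < 0`, uniformly on a compact set -/
theorem imp_sc {P : Type*} [NormedAddCommGroup P] [NormedSpace ℝ P] [ProperSpace P]
    {Ψ : EE n × ℝ × P → ℝ} {S : Set (EE n × ℝ × P)} (hS : IsCompact S)
    (hΨ : ∀ a ∈ S, ContDiffAt ℝ 2 Ψ a) {κ : ℝ} (hκ : 0 < κ) :
    ∃ C δ : ℝ, 0 ≤ C ∧ 0 < δ ∧ δ ≤ 1 / 4 ∧ ∀ x r q, (x, r, q) ∈ S → Ψ (x, r, q) = 0 →
      fderiv ℝ Ψ (x, r, q) (0, 1, 0) ≤ -κ → ∃ p : EE n, ‖p‖ ≤ C ∧
        (∀ h, ⟪p, h⟫ * fderiv ℝ Ψ (x, r, q) (0, 1, 0) = fderiv ℝ Ψ (x, r, q) (h, 0, 0)) ∧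
        ∀ h, ‖h‖ ≤ δ → |C * ‖h‖ ^ 2 - ⟪p, h⟫| ≤ 1 / 4 ∧
          (h ≠ 0 → Ψ (x + h, r + (C * ‖h‖ ^ 2 - ⟪p, h⟫), q) < 0) := by
  obtain ⟨D, δ, hD, hδ, H⟩ := taylor_cpt hS hΨ
  set C := D / κ + (D * (2 + D / κ) ^ 2 + 1) / κ with hC
  have c1 : 0 ≤ D / κ := by positivity
  have c2 : 0 < (D * (2 + D / κ) ^ 2 + 1) / κ := by positivity
  have c0 : 0 < C := by positivity
  refine ⟨C, min (min (1 / C) (δ / (2 + D / κ))) (1 / (4 * (1 + D / κ))), c0.le, by positivity,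
    (min_le_right _ _).trans (one_div_le_one_div_of_le (by norm_num) (by linarith)),
    fun x r q ha h0 h1 => ?_⟩
  obtain ⟨a1, a2⟩ := H _ ha
  set A := fderiv ℝ Ψ (x, r, q)
  have a0 : A (0, 1, 0) ≠ 0 := by linarith |> fun h : A (0, 1, 0) < 0 => h.ne
  set p := (toDual ℝ (EE n)).symm ((A (0, 1, 0))⁻¹ • A ∘L ContinuousLinearMap.inl ℝ _ _) with hp
  have a3 : ∀ h, ⟪p, h⟫ * A (0, 1, 0) = A (h, 0, 0) := fun h => by
    rw [hp, toDual_symm_apply]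
    simp only [smul_apply, ContinuousLinearMap.comp_apply, ContinuousLinearMap.inl_apply,
      smul_eq_mul]
    field_simp; rfl
  have a4 : ∀ h, |⟪p, h⟫| ≤ D / κ * ‖h‖ := fun h => by
    have b1 : |A (h, 0, 0)| ≤ D * ‖h‖ := (A.le_opNorm _).trans (mul_le_mul a1 (by
      simp [Prod.norm_def]) (norm_nonneg _) hD)
    rw [← a3, abs_mul, abs_of_neg (by linarith : A (0, 1, 0) < 0)] at b1
    rw [div_mul_eq_mul_div, le_div_iff₀ hκ]
    nlinarith [abs_nonneg ⟪p, h⟫]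
  refine ⟨p, ?_, a3, fun h hh => ?_⟩
  · have b1 := (le_abs_self _).trans (a4 p)
    rw [real_inner_self_eq_norm_sq] at b1
    nlinarith [norm_nonneg p]
  simp only [le_min_iff] at hh
  obtain ⟨⟨b1, b2⟩, b3⟩ := hh
  rw [le_div_iff₀ (by positivity)] at b1 b2 b3
  have b0 := norm_nonneg h
  have b4 : |C * ‖h‖ ^ 2 - ⟪p, h⟫| ≤ ‖h‖ * (1 + D / κ) := by
    have c3 := abs_le.1 (a4 h)
    have c4 : C * ‖h‖ ^ 2 ≤ ‖h‖ := by nlinarith
    have c5 : 0 ≤ C * ‖h‖ ^ 2 := by positivity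
    exact abs_le.2 ⟨by nlinarith, by nlinarith⟩
  refine ⟨by linarith, fun hh => ?_⟩
  set b : EE n × ℝ × P := (h, C * ‖h‖ ^ 2 - ⟪p, h⟫, 0) with hb
  have b5 : ‖b‖ ≤ ‖h‖ * (2 + D / κ) :=
    max_le (by nlinarith) (max_le (b4.trans (by nlinarith)) (by rw [norm_zero]; positivity))
  have b6 := (abs_le.1 (a2 b (b5.trans b2)).2).2
  have b7 : A b = C * ‖h‖ ^ 2 * A (0, 1, 0) := by
    rw [show b = (h, 0, 0) + (C * ‖h‖ ^ 2 - ⟪p, h⟫) • (0, 1, 0) by simp [hb], map_add, map_smul,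
      ← a3, smul_eq_mul]
    ring
  have b8 : D * (2 + D / κ) ^ 2 + 1 ≤ C * κ := by
    rw [hC, add_mul, div_mul_cancel₀ _ hκ.ne', div_mul_cancel₀ _ hκ.ne']; linarith
  have b9 := pow_pos (norm_pos_iff.2 hh) 2
  have c3 := mul_le_mul_of_nonneg_left (pow_le_pow_left₀ (norm_nonneg _) b5 2) hD
  have c4 := mul_le_mul_of_nonneg_left h1 (mul_pos c0 b9).le
  rw [h0, b7, show (x, r, q) + b = (x + h, r + (C * ‖h‖ ^ 2 - ⟪p, h⟫), q) by simp [hb]] at b6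
  nlinarith

/-- a common paraboloid below a family of two-point functions -/
theorem zf_supp (n : ℕ) : ∃ C : ℝ, 0 ≤ C ∧ ∀ v : EE n → ℝ, Sol v → ∀ (x : EE n) (c : ℝ)
    (A : Set (EE n)), (∀ ε > 0, ∃ p ∈ A, c - ε ≤ Zf (dd v) p x) → ∃ q : EE n, ‖q‖ ≤ C ∧
      ∀ h, ∀ ε > 0, ∃ p ∈ A, c - ε + ⟪q, h⟫ - C * ‖h‖ ^ 2 ≤ Zf (dd v) p (x + h) := by
  obtain ⟨C, hC, H⟩ := exists_Zbd n
  refine ⟨C, hC, fun v hv x c A hA => ?_⟩
  choose p hp hp' using fun j : ℕ => hA (1 / ((j : ℝ) + 1)) Nat.one_div_pos_of_nat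
  obtain ⟨q, hq, φ, hφ, h2⟩ := (isCompact_closedBall (0 : EE n) C).tendsto_subseq
    (x := fun j => ∇ (Zf (dd v) (p j)) x) fun j =>
      mem_closedBall_zero_iff.2 ((St.norm_grad _ x).trans_le (H v hv _ x).2.1)
  refine ⟨q, mem_closedBall_zero_iff.1 hq, fun h ε hε => ?_⟩
  have h3 := (((tendsto_one_div_add_atTop_nhds_zero_nat (𝕜 := ℝ)).comp
    hφ.tendsto_atTop).const_sub c).add (h2.inner (𝕜 := ℝ) (tendsto_const_nhds (x := h)))
  obtain ⟨j, hj⟩ := (h3.eventually (lt_mem_nhds (show c - ε + ⟪q, h⟫ < _ by linarith))).exists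
  refine ⟨p (φ j), hp _, ?_⟩
  have h4 := (abs_le.1 (abs_tay_le (Zf_sm hv.dd_sm (p (φ j))) (fun y => (H v hv _ y).2.2) h x)).2
  simp only [Function.comp_apply, inner_grad] at hj
  rw [tay] at h4
  linarith [hp' (φ j)]

theorem nn_sm (hv : Sol v) : ContDiff ℝ ∞ (nn v) :=
  contDiff_euclidean.2 fun i => by simpa only [nn, grad_apply] using hv.pdv_dd_sm i

theorem NN_sm (hv : Sol v) (h : 0 < NN v x) : ContDiffAt ℝ 2 (NN v) x := gN_sm hv h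

theorem nu_sm (hv : Sol v) (h : 0 < NN v x) : ContDiffAt ℝ 2 (nu v) x :=
  ((NN_sm hv h).inv h.ne').smul (contDiff_infty.1 (nn_sm hv) 2).contDiffAt

theorem exists_lip_nn (n : ℕ) : ∃ C : ℝ, 1 ≤ C ∧ ∀ v : EE n → ℝ, Sol v → ∀ x y,
    ‖nn v y - nn v x‖ ≤ C * ‖y - x‖ ∧ |NN v y - NN v x| ≤ C * ‖y - x‖ ∧
      (1 / 2 ≤ NN v x → 0 < NN v y → ‖nu v y - nu v x‖ ≤ 4 * C * ‖y - x‖) := by
  obtain ⟨C, H⟩ := dreg n 1
  refine ⟨|C| + 1, by linarith [abs_nonneg C], fun v hv x y => ?_⟩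
  have h1 : ‖nn v y - nn v x‖ ≤ (|C| + 1) * ‖y - x‖ := by
    have h2 := convex_univ.norm_image_sub_le_of_norm_fderiv_le (C := |C| + 1)
      (fun w _ => diff_fderiv hv.dd_sm w) (fun w _ => ((norm_hb _ w).trans_le (H v hv w)).trans
        (by linarith [le_abs_self C])) (mem_univ x) (mem_univ y)
    rwa [nn, nn, gradient, gradient, ← map_sub, LinearIsometryEquiv.norm_map]
  have h2 : |NN v y - NN v x| ≤ (|C| + 1) * ‖y - x‖ := (abs_norm_sub_norm_le _ _).trans h1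
  refine ⟨h1, h2, fun hx hy => ?_⟩
  have h3 : NN v x • (nu v y - nu v x) = nn v y - nn v x - (NN v y - NN v x) • nu v y := by
    rw [smul_sub, sub_smul, smul_nu hy, smul_nu (by linarith)]; abel
  have h4 := norm_sub_le (nn v y - nn v x) ((NN v y - NN v x) • nu v y)
  rw [← h3, norm_smul, norm_smul, Wd.norm_nu hy, Real.norm_of_nonneg (NN_nonneg v x),
    Real.norm_eq_abs] at h4
  nlinarith [norm_nonneg (nu v y - nu v x)]

/-- derivatives along a line -/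
theorem line_der {C : ℝ} (hC : 0 ≤ C) (hv : Sol v) (hN : 1 / 2 ≤ NN v x)
    (H : ∀ y, |NN v y - NN v x| ≤ C * ‖y - x‖ ∧ (0 < NN v y → ‖nu v y - nu v x‖ ≤ 4 * C * ‖y - x‖))
    (h : EE n) : ∃ (d' N' : ℝ) (ν' : EE n), |d'| ≤ ‖h‖ ∧ |N'| ≤ C * ‖h‖ ∧ ‖ν'‖ ≤ 4 * C * ‖h‖ ∧
      HasDerivAt (fun s : ℝ => dd v (x + s • h)) d' 0 ∧
      HasDerivAt (fun s : ℝ => NN v (x + s • h)) N' 0 ∧
      HasDerivAt (fun s : ℝ => nu v (x + s • h)) ν' 0 := by
  have hN0 : 0 < NN v x := by linarith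
  have l : HasDerivAt (fun s : ℝ => x + s • h) h 0 := by
    simpa using ((hasDerivAt_id (0 : ℝ)).smul_const h).const_add x
  have e : x = x + (0 : ℝ) • h := by simp
  refine ⟨_, _, _, ?_, ?_, ?_, (hv.dd_diff x).hasFDerivAt.comp_hasDerivAt_of_eq 0 l e,
    ((NN_sm hv hN0).differentiableAt (by simp)).hasFDerivAt.comp_hasDerivAt_of_eq 0 l e,
    ((nu_sm hv hN0).differentiableAt (by simp)).hasFDerivAt.comp_hasDerivAt_of_eq 0 l e⟩
  · rw [← inner_grad]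
    exact (abs_real_inner_le_norm _ _).trans
      (mul_le_of_le_one_left (norm_nonneg _) (hv.norm_grad_dd_le x))
  · exact (ContinuousLinearMap.le_opNorm _ h).trans (mul_le_mul_of_nonneg_right
      (norm_fderiv_le_of_lip' ℝ (f := NN v) hC (Eventually.of_forall fun y => (H y).1)) (norm_nonneg _))
  · exact (ContinuousLinearMap.le_opNorm _ h).trans (mul_le_mul_of_nonneg_right
      (norm_fderiv_le_of_lip' ℝ (by positivity) (((NN_sm hv hN0).continuousAt.eventually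
        (lt_mem_nhds hN0)).mono fun y hy => (H y).2 hy)) (norm_nonneg _))

theorem fderiv_line {G : Type*} [NormedAddCommGroup G] [NormedSpace ℝ G] {Ψ : G → ℝ} {a b : G}
    {D : ℝ} (h : ContDiffAt ℝ 2 Ψ a) (hD : HasDerivAt (fun s : ℝ => Ψ (a + s • b)) D 0) :
    fderiv ℝ Ψ a b = D := by
  have l : HasDerivAt (fun s : ℝ => a + s • b) b 0 := by
    simpa using ((hasDerivAt_id (0 : ℝ)).smul_const b).const_add a
  exact ((h.differentiableAt (by simp)).hasFDerivAt.comp_hasDerivAt_of_eq 0 l (by simp)).unique hD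

end

end Crest.Agent.N067.M.X0
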