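import Crest.Agent.N067.X0.Imp

/-!
# Row 67, block X0 (helper18): paraboloids above `rt` at long and at short contacts
-/

set_option autoImplicit false

open MeasureTheory Laplacian InnerProductSpace Topology Filter Set Metric
open scoped RealInnerProductSpace Gradient ContDiff

namespace Crest.Agent.N067.M.X0

open Crest.Agent.R077 Crest.Agent.N067.V

noncomputable section

variable {n : ℕ} {β : Bo} {v : EE n → ℝ} {x z w om p : EE n} {r y ρm : ℝ}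

/-- the point of the lens with the parameters `q` -/
def wq (v : EE n → ℝ) (q : ℝ × EE n) (x : EE n) : EE n := q.1 • nu v x + tan (nu v x) q.2

/-- the defect of a long contact; the variables are `(x, r, z, y, q)` -/
def Ps1 (β : Bo) (v : EE n → ℝ) (a : EE n × ℝ × EE n × ℝ × ℝ × EE n) : ℝ :=
  dd v a.2.2.1 - QQ β v a.1 a.2.1 (wq v a.2.2.2.2 a.1) a.2.2.2.1 a.2.2.1

theorem QQ_sm {G : Type*} [NormedAddCommGroup G] [NormedSpace ℝ G] {a : G} (hv : Sol v)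
    {X Z T : G → EE n} {R Y g : G → ℝ} (hX : ContDiffAt ℝ 2 X a) (hZ : ContDiffAt ℝ 2 Z a)
    (hT : ContDiffAt ℝ 2 T a) (hR : ContDiffAt ℝ 2 R a) (hY : ContDiffAt ℝ 2 Y a)
    (hg : ContDiffAt ℝ 2 g a) (hN : 0 < NN v (X a)) (hL : R a - dd v (X a) ≠ 0) (hy : Y a ≠ 0) :
    ContDiffAt ℝ 2 (fun a => QQ β v (X a) (R a) (wq v (g a, T a) (X a)) (Y a) (Z a)) a := by
  have h0 : ContDiffAt ℝ 2 (fun a => dd v (X a)) a := (c2_of hv.dd_sm _).comp a hX
  have h1 : ContDiffAt ℝ 2 (fun a => NN v (X a)) a := (NN_sm hv hN).comp a hX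
  have h2 : ContDiffAt ℝ 2 (fun a => nu v (X a)) a := (nu_sm hv hN).comp a hX
  have h3 := hR.sub h0
  have h4 : ContDiffAt ℝ 2 (fun a => wq v (g a, T a) (X a)) a :=
    (hg.smul h2).add (hT.sub ((ContDiffAt.inner ℝ hT h2).smul h2))
  have h5 : ContDiffAt ℝ 2 (fun a => ‖Z a - cen v (X a) (R a) (wq v (g a, T a) (X a))‖ ^ 2) a :=
    (hZ.sub ((hX.add (h3.smul h2)).add (hR.smul h4))).norm_sq ℝ
  exact h0.add ((h1.mul ((h3.pow 2).sub ((((h5.add (hY.pow 2)).div (contDiffAt_const.mul hY)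
    (mul_ne_zero two_ne_zero hy)).add (contDiffAt_const.mul hR)).pow 2))).div
      (contDiffAt_const.mul h3) (mul_ne_zero two_ne_zero hL))

theorem Ps1_sm (hv : Sol v) {a : EE n × ℝ × EE n × ℝ × ℝ × EE n} (hN : 0 < NN v a.1)
    (hL : a.2.1 - dd v a.1 ≠ 0) (hy : a.2.2.2.1 ≠ 0) : ContDiffAt ℝ 2 (Ps1 β v) a :=
  ((c2_of hv.dd_sm _).comp a contDiffAt_snd.snd.fst).sub (QQ_sm hv contDiffAt_fst
    contDiffAt_snd.snd.fst contDiffAt_snd.snd.snd.snd.snd contDiffAt_snd.fst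
    contDiffAt_snd.snd.snd.fst contDiffAt_snd.snd.snd.snd.fst hN hL hy)

theorem hasDerivAt_gp {N L Y : ℝ → ℝ} {N' L' Y' : ℝ} (hN : HasDerivAt N N' 0)
    (hL : HasDerivAt L L' 0) (hY : HasDerivAt Y Y' 0) (h : L 0 ≠ 0) :
    HasDerivAt (fun s => gp (N s) (L s) (Y s)) (N' * (L 0 * (1 - (Y 0 / L 0) ^ 2) / 2) +
      N 0 * (L' * (1 + (Y 0 / L 0) ^ 2) / 2 - Y 0 / L 0 * Y')) 0 := by
  unfold gp
  refine ((hN.mul ((hL.pow 2).sub (hY.pow 2))).div (hL.const_mul 2)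
    (mul_ne_zero two_ne_zero h)).congr_deriv ?_
  simp only [Pi.pow_apply, Pi.sub_apply, Pi.mul_apply, Nat.cast_ofNat, Nat.add_one_sub_one, pow_one]
  field_simp; ring

theorem der1 {q : ℝ × EE n} {h ν' : EE n} {d' N' : ℝ} (ρ : ℝ) (hL : r - dd v x ≠ 0) (hy : 0 < y)
    (hom : ‖om‖ = 1) (hz : z = cen v x r (wq v q x) + y • om)
    (h1 : HasDerivAt (fun s : ℝ => dd v (x + s • h)) d' 0)
    (h2 : HasDerivAt (fun s : ℝ => NN v (x + s • h)) N' 0)
    (h3 : HasDerivAt (fun s : ℝ => nu v (x + s • h)) ν' 0) :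
    HasDerivAt (fun s : ℝ => Ps1 β v ((x, r, z, y, q) + s • (h, ρ, 0)))
      (-(d' + (N' * ((r - dd v x) * (1 - ((y + β.η * r) / (r - dd v x)) ^ 2) / 2) +
        NN v x * ((ρ - d') * (1 + ((y + β.η * r) / (r - dd v x)) ^ 2) / 2 -
          (y + β.η * r) / (r - dd v x) * (β.η * ρ - ⟪om, h + ((r - dd v x) • ν' + (ρ - d') • nu v x) +
            (r • (q.1 • ν' - (⟪q.2, nu v x⟫ • ν' + ⟪q.2, ν'⟫ • nu v x)) + ρ • wq v q x)⟫))))) 0 := by
  have l : HasDerivAt (fun s : ℝ => x + s • h) h 0 := by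
    simpa using ((hasDerivAt_id (0 : ℝ)).smul_const h).const_add x
  have lr : HasDerivAt (fun s : ℝ => r + s * ρ) ρ 0 := by
    simpa using ((hasDerivAt_id (0 : ℝ)).mul_const ρ).const_add r
  have h4 : HasDerivAt (fun s : ℝ => wq v q (x + s • h))
      (q.1 • ν' - (⟪q.2, nu v x⟫ • ν' + ⟪q.2, ν'⟫ • nu v x)) 0 := by
    have := (h3.const_smul q.1).add ((((hasDerivAt_const (0 : ℝ) q.2).inner ℝ h3).smul h3).const_sub q.2)
    exact this.congr_deriv (by simp [sub_eq_add_neg])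
  have h5 := (((l.add ((lr.sub h1).smul h3)).add (lr.smul h4)).const_sub z).norm_sq
  have h6 := ((h5.add_const (y ^ 2)).div_const (2 * y)).add (lr.const_mul β.η)
  have h7 := (h1.add (hasDerivAt_gp h2 (lr.sub h1) h6 (by simpa using hL))).const_sub (dd v z)
  have e : z - (x + (r - dd v x) • nu v x + r • wq v q x) = y • om := by rw [hz, cen]; abel
  have e2 : (y ^ 2 + y ^ 2) / (2 * y) = y := by field_simp; ring
  refine (h7.congr_deriv ?_).congr_of_eventuallyEq (Eventually.of_forall fun s => ?_)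
  · simp only [Pi.add_apply, Pi.sub_apply, Pi.smul_apply', zero_smul, add_zero, zero_mul, e,
      norm_smul, hom, mul_one, Real.norm_eq_abs, sq_abs, e2, inner_neg_right, real_inner_smul_left]
    congr 5
    field_simp; ring
  · simp [Ps1, QQ, cen]

/-- a paraboloid above `rt` with vertex value `r` and slope at most `B` -/
def Supp (β : Bo) (v : EE n → ℝ) (ρm : ℝ) (x : EE n) (r C δ B : ℝ) : Prop :=
  ∃ p : EE n, ‖p‖ ≤ C ∧ ‖p‖ ≤ B ∧
    ∀ h, ‖h‖ ≤ δ → h ≠ 0 → rt β v ρm (x + h) ≤ r + (C * ‖h‖ ^ 2 - ⟪p, h⟫)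

theorem norm_le_of {A B κ : ℝ} {f : EE n → ℝ} (hκ : 0 < κ) (hB : 0 ≤ B) (hA : A ≤ -κ)
    (h : ∀ h, ⟪p, h⟫ * A = f h) (hf : ∀ h, |f h| ≤ B * ‖h‖) : ‖p‖ ≤ B / κ := by
  have h1 := hf p
  rw [← h, real_inner_self_eq_norm_sq, abs_mul, abs_of_neg (by linarith : A < 0), abs_sq] at h1
  rw [le_div_iff₀ hκ]
  rcases (norm_nonneg p).eq_or_lt with h0 | h0
  · rw [← h0, zero_mul]; exact hB
  · exact le_of_mul_le_mul_right (by nlinarith [mul_pos h0 h0]) h0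

theorem Sm.near (hs : Sm v x r) {h : EE n} {s : ℝ} (h1 : ‖h‖ ≤ 1 / 4) (h2 : |s| ≤ 1 / 4) :
    |dd v (x + h)| < r + s ∧ |r + s - dd v (x + h) - (r - dd v x)| ≤ 1 / 2 := by
  have a1 := abs_le.1 (hs.sol.abs_dd_sub_le (x + h) x)
  have a2 := abs_le.1 h2
  rw [add_sub_cancel_left] at a1
  exact ⟨abs_lt.2 ⟨by linarith [hs.d, neg_abs_le (dd v x), abs_nonneg (dd v x)],
    by linarith [hs.d, le_abs_self (dd v x), abs_nonneg (dd v x)]⟩,
    abs_le.2 ⟨by linarith, by linarith⟩⟩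

theorem Con.sig_le (h : Con β v x r w om z y) : (y + β.η * r) / (r - dd v x) ≤ 2 := by
  have h1 := NN_le_one h.sm.sol z
  rw [h.NN_eq, mul_div_assoc] at h1
  have h2 : 0 ≤ (y + β.η * r) / (r - dd v x) :=
    div_nonneg (add_nonneg h.ypos.le (h.sm.eta β).1) h.sm.Lpos.le
  nlinarith [h.sm.N]

theorem supp_long (n : ℕ) : ∃ B : ℝ, 1 ≤ B ∧ ∀ (β : Bo) (v : EE n → ℝ) (ρm : ℝ) (K : Set (EE n)),
    Sol v → IsCompact K → (∀ x ∈ K, 1 / 2 ≤ NN v x) → ∃ C δ : ℝ, 0 ≤ C ∧ 0 < δ ∧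
      ∀ x ∈ K, ∀ r w om z y, Con β v x r w om z y → r ≤ ρm →
        3 / 4 * (r - dd v x) ≤ y + β.η * r → 0 ≤ ⟪om, nu v x⟫ → Supp β v ρm x r C δ (B * r ^ 2) := by
  obtain ⟨CL, hCL, HL⟩ := exists_lip_nn n
  refine ⟨120 * CL, by linarith, fun β v ρm K hv hK hN => ?_⟩
  obtain ⟨R, hR⟩ := hK.isBounded.subset_closedBall 0
  have dc := hv.dd_sm.continuous
  obtain ⟨C, δ, hC, hδ, hδ1, H⟩ := imp_sc (Ψ := Ps1 β v) (S := (K ×ˢ Icc 0 ρm ×ˢ
      closedBall 0 (R + 6 * ρm) ×ˢ Icc 1 (3 * ρm) ×ˢ Par β n) ∩ {a | 1 ≤ a.2.1 - dd v a.1})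
    ((hK.prod (isCompact_Icc.prod ((isCompact_closedBall _ _).prod
      (isCompact_Icc.prod (isCompact_par β n))))).inter_right (isClosed_le (by fun_prop) (by fun_prop)))
    (fun a ha => Ps1_sm hv (by linarith [hN _ ha.1.1]) (one_pos.trans_le ha.2).ne'
      (one_pos.trans_le ha.1.2.2.2.1.1).ne') (κ := 1 / 4) (by norm_num)
  refine ⟨C, min δ (1 / (4 * CL)), hC, by positivity, fun x hx r w om z y h hr hY hc => ?_⟩
  have hq := par_of_mem h.sm.ax h.cone.mem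
  have hw : wq v (⟪w, nu v x⟫, tan (nu v x) w) x = w := by rw [wq, tan_tan h.sm.ax, add_tan]
  have hL := h.sm.Lpos
  have hL1 := h.sm.L1
  have hL2 := h.sm.L2
  have r8 := h.sm.r8
  have hη := h.sm.eta β
  have hσ2 := h.sig_le
  have hσ1 : 3 / 4 ≤ (y + β.η * r) / (r - dd v x) := (le_div_iff₀ hL).2 hY
  have hy2 := (div_le_iff₀ hL).1 hσ2
  have hw1 : ‖w‖ ≤ 1 := h.cone.mem.1.trans (by linarith [β.η1])
  have hS : (x, r, z, y, (⟪w, nu v x⟫, tan (nu v x) w)) ∈ (K ×ˢ Icc 0 ρm ×ˢ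
      closedBall 0 (R + 6 * ρm) ×ˢ Icc 1 (3 * ρm) ×ˢ Par β n) ∩ {a | 1 ≤ a.2.1 - dd v a.1} := by
    refine ⟨⟨hx, ⟨by linarith, hr⟩, mem_closedBall_zero_iff.2 ?_, ⟨by linarith, by linarith⟩, hq⟩,
      show 1 ≤ r - dd v x by linarith⟩
    have a1 := mem_closedBall_zero_iff.1 (hR hx)
    have a2 := (norm_add_le _ (y • om)).trans (add_le_add_left
      (norm_add₃_le (a := x) (b := (r - dd v x) • nu v x) (c := r • w)) _)
    rw [norm_smul, norm_smul, norm_smul, h.cone.unit, h.sm.ax, Real.norm_of_nonneg hL.le,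
      Real.norm_of_nonneg (by linarith : 0 ≤ r), Real.norm_of_nonneg h.ypos.le] at a2
    change ‖z‖ ≤ _
    rw [h.at', cen]
    nlinarith
  have hsm := Ps1_sm (β := β) hv (a := (x, r, z, y, (⟪w, nu v x⟫, tan (nu v x) w))) h.sm.Npos hL.ne'
    h.ypos.ne'
  have hr1 : fderiv ℝ (Ps1 β v) (x, r, z, y, (⟪w, nu v x⟫, tan (nu v x) w)) (0, 1, 0) ≤ -(1 / 4) := by
    rw [fderiv_line hsm (der1 (h := 0) (ν' := 0) (d' := 0) (N' := 0) 1 hL.ne' h.ypos h.cone.unit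
      (by rw [hw]; exact h.at') (by simpa using hasDerivAt_const _ _)
      (by simpa using hasDerivAt_const _ _) (by simpa using hasDerivAt_const _ _)), hw]
    simp only [zero_add, zero_mul, sub_zero, one_mul, mul_one, smul_zero, one_smul,
      inner_zero_right, zero_smul, add_zero, inner_add_right]
    have a1 := h.cone.trans
    have a2 : β.η - (⟪om, nu v x⟫ + ⟪om, w⟫) ≤ 1 / 100 := by nlinarith [β.η1]
    have a3 : 1 / 2 ≤ (1 + ((y + β.η * r) / (r - dd v x)) ^ 2) / 2 -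
      (y + β.η * r) / (r - dd v x) * (β.η - (⟪om, nu v x⟫ + ⟪om, w⟫)) := by nlinarith
    nlinarith [h.sm.N]
  obtain ⟨p, p1, p2, p3⟩ := H _ _ _ hS (by
    simp only [Ps1, hw, QQ_eq h.ypos h.norm_eq, h.eq, sub_self]) hr1
  refine ⟨p, p1, (norm_le_of (B := 30 * CL * r) (by norm_num) (by positivity) hr1 p2
    fun a => ?_).trans (by nlinarith [mul_pos (by linarith : 0 < CL) (by linarith : 0 < r)]),
    fun a ha ha0 => ?_⟩
  · obtain ⟨d', N', ν', b1, b2, b3, b4, b5, b6⟩ := line_der (by linarith) hv h.sm.N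
      (fun y => ⟨(HL v hv x y).2.1, (HL v hv x y).2.2 h.sm.N⟩) a
    rw [fderiv_line hsm (der1 0 hL.ne' h.ypos h.cone.unit (by rw [hw]; exact h.at') b4 b5 b6),
      abs_neg]
    set σ := (y + β.η * r) / (r - dd v x)
    have c0 := norm_nonneg a
    have c1 : |⟪w, nu v x⟫| ≤ 1 / 100 := (Wd.abs_inner_le h.cone.mem.1 h.sm.ax).trans β.η1
    have c2 : |⟪tan (nu v x) w, ν'⟫| ≤ 1 / 100 * ‖ν'‖ := (abs_real_inner_le_norm _ _).trans
      (mul_le_mul_of_nonneg_right ((norm_tan_le h.sm.ax w).trans (h.cone.mem.1.trans β.η1))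
        (norm_nonneg _))
    have c3 : ‖⟪w, nu v x⟫ • ν' - ⟪tan (nu v x) w, ν'⟫ • nu v x‖ ≤ 1 / 50 * ‖ν'‖ := by
      refine (norm_sub_le _ _).trans ?_
      rw [norm_smul, norm_smul, h.sm.ax, Real.norm_eq_abs, Real.norm_eq_abs]
      nlinarith [norm_nonneg ν']
    simp only [inner_tan h.sm.ax, zero_smul, zero_add, add_zero, zero_sub, mul_zero]
    set u := a + ((r - dd v x) • ν' + -d' • nu v x) +
      r • (⟪w, nu v x⟫ • ν' - ⟪tan (nu v x) w, ν'⟫ • nu v x) with hu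
    have c4 : |⟪om, u⟫| ≤ 2 * ‖a‖ + 5 * (CL * r * ‖a‖) := by
      have c5 := (norm_add₃_le (a := a) (b := (r - dd v x) • ν' + -d' • nu v x)
        (c := r • (⟪w, nu v x⟫ • ν' - ⟪tan (nu v x) w, ν'⟫ • nu v x))).trans
        (add_le_add_left (add_le_add_right (norm_add_le _ _) _) _)
      rw [← hu, norm_smul, norm_smul, norm_smul, h.sm.ax, Real.norm_of_nonneg hL.le, norm_neg,
        Real.norm_of_nonneg (by linarith : 0 ≤ r), Real.norm_eq_abs] at c5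
      have c6 := abs_real_inner_le_norm om u
      rw [h.cone.unit] at c6
      nlinarith [mul_le_mul_of_nonneg_left c3 (by linarith : 0 ≤ r), norm_nonneg ν',
        mul_le_mul_of_nonneg_left b3 (by linarith : 0 ≤ r),
        mul_le_mul_of_nonneg_right hL2 (norm_nonneg ν')]
    have c5 : |N' * ((r - dd v x) * (1 - σ ^ 2) / 2)| ≤ CL * ‖a‖ * (2 * r) := by
      rw [abs_mul]
      have c6 : σ ^ 2 ≤ 4 := by nlinarith
      refine mul_le_mul b2 (abs_le.2 ⟨?_, ?_⟩) (abs_nonneg _) (by positivity) <;>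
        nlinarith [mul_le_mul_of_nonneg_left c6 hL.le, mul_nonneg hL.le (sq_nonneg σ)]
    have c6 : |-d' * (1 + σ ^ 2) / 2 - σ * -⟪om, u⟫| ≤
        ‖a‖ * (5 / 2) + 2 * (2 * ‖a‖ + 5 * (CL * r * ‖a‖)) := by
      refine (abs_sub _ _).trans (add_le_add ?_ ?_)
      · rw [mul_div_assoc, abs_mul, abs_neg]
        exact mul_le_mul b1 (abs_le.2 ⟨by nlinarith, by nlinarith⟩) (abs_nonneg _) c0
      · rw [abs_mul, abs_neg]
        exact mul_le_mul (abs_le.2 ⟨by linarith, hσ2⟩) c4 (abs_nonneg _) zero_le_two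
    have c7 : |NN v x * (-d' * (1 + σ ^ 2) / 2 - σ * -⟪om, u⟫)| ≤
        |-d' * (1 + σ ^ 2) / 2 - σ * -⟪om, u⟫| := by
      rw [abs_mul, abs_of_pos h.sm.Npos]
      exact mul_le_of_le_one_left (abs_nonneg _) (NN_le_one hv x)
    have c8 : 8 * ‖a‖ ≤ CL * r * ‖a‖ := mul_le_mul_of_nonneg_right (by nlinarith) c0
    refine ((abs_add_le _ _).trans (add_le_add b1 ((abs_add_le _ _).trans
      (add_le_add c5 (c7.trans c6))))).trans ?_
    nlinarith
  · obtain ⟨b1, b2⟩ := p3 a (ha.trans (min_le_left _ _))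
    have b3 := (h.sm.near ((ha.trans (min_le_left _ _)).trans hδ1) b1).1
    have b4 : 0 < NN v (x + a) := by
      have c1 := (abs_le.1 (HL v hv x (x + a)).2.1).1
      have c2 := (le_div_iff₀ (by positivity)).1 (ha.trans (min_le_right _ _))
      rw [add_sub_cancel_left] at c1
      linarith [h.sm.N]
    refine Wd.rt_le b3 fun hf => ?_
    have b5 := hf _ (Par.mem hq (Wd.norm_nu b4)) z
    have b6 := QQ_le (β := β) b4.le b3 h.ypos (wq v (⟪w, nu v x⟫, tan (nu v x) w) (x + a)) z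
    have b7 := b2 ha0
    simp only [Ps1] at b7
    change PP β v (x + a) _ (wq v _ (x + a)) z ≤ _ at b5
    linarith

end

end Crest.Agent.N067.M.X0
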