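import Crest.Agent.N067.X0.Cont
import Crest.Agent.N067.M.FL0

/-!
# Row 67, block X0 (helper18): consequences of `x ∈ Val`
-/

set_option autoImplicit false

open MeasureTheory Laplacian InnerProductSpace Topology Filter Set Metric
open scoped RealInnerProductSpace Gradient ContDiff

namespace Crest.Agent.N067.M.X0

open Crest.Agent.R077 Crest.Agent.N067.V

noncomputable section

variable {n : ℕ}

/-- the facts at a valid point -/
structure VF (β : Bo) (v : EE n → ℝ) (ρm δ A : ℝ) (x : EE n) : Prop where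
  pos : 0 < ph0 v x
  small : ph0 v x ≤ δ
  t : tt v x ≤ δ
  N : 3 / 4 ≤ NN v x
  dph : |dd v x| * ph0 v x ≤ δ
  lo : min ρm (1 / (2 * ph0 v x)) ≤ rt β v ρm x
  sm : Sm v x (rt β v ρm x)
  fit : Fit β v x (rt β v ρm x)
  act : rt β v ρm x < ρm → 1 / (2 * ph0 v x) ≤ rt β v ρm x ∧ |dd v x| ≤ δ * rt β v ρm x ∧
    A ≤ rt β v ρm x

theorem log_mul_le {C2 δ M s : ℝ} (hδ : 0 < δ) (hM : (2 * |C2| / δ) ^ 2 + 1 ≤ M) (h0 : 0 < s)
    (hs : s < 1 / M) : C2 * Real.log (1 / s) * s ≤ δ := by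
  have hM0 : 1 ≤ M := by linarith [sq_nonneg (2 * |C2| / δ)]
  have h1 : M < 1 / s := (lt_one_div (by linarith) h0).2 hs
  have h2 := Real.sqrt_pos.2 (one_div_pos.2 h0)
  have h3 : Real.log (1 / s) ≤ 2 * √(1 / s) := by
    have := Real.log_le_sub_one_of_pos h2
    rw [Real.log_sqrt (one_div_pos.2 h0).le] at this
    linarith
  have h4 : 0 ≤ Real.log (1 / s) := Real.log_nonneg (by linarith)
  have h5 : 2 * |C2| / δ ≤ √(1 / s) := Real.le_sqrt_of_sq_le (by linarith)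
  have h6 : √(1 / s) * √(1 / s) * s = 1 := by
    rw [Real.mul_self_sqrt (one_div_pos.2 h0).le, one_div_mul_cancel h0.ne']
  rw [div_le_iff₀ hδ] at h5
  have h7 : C2 * Real.log (1 / s) ≤ |C2| * (2 * √(1 / s)) :=
    mul_le_mul (le_abs_self _) h3 h4 (abs_nonneg _)
  nlinarith [mul_le_mul_of_nonneg_right h7 h0.le, mul_le_mul_of_nonneg_right h5 (mul_pos h2 h0).le]

theorem val_facts (n : ℕ) (C2 A : ℝ) {δ : ℝ} (hδ : 0 < δ) : ∃ M : ℝ, 1 ≤ M ∧
    ∀ (β : Bo) (v : EE n → ℝ) (ρm : ℝ), PS v → ∀ x ∈ Val v M C2 ρm, VF β v ρm δ A x := by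
  obtain ⟨C, hC, H⟩ := fl_tt n
  obtain ⟨e, e0, e1, e2⟩ : ∃ e : ℝ, 0 < e ∧ e ≤ δ / 2 ∧ e ≤ 1 / 40 :=
    ⟨min (δ / 2) (1 / 40), by positivity, min_le_left _ _, min_le_right _ _⟩
  have p1 : 0 ≤ (2 * |C2| / e) ^ 2 := sq_nonneg _
  have p2 : 0 < C / e := by positivity
  refine ⟨(2 * |C2| / e) ^ 2 + 1 + C / e + 2 * |A|, by linarith [abs_nonneg A],
    fun β v ρm hv x hx => ?_⟩
  set M := (2 * |C2| / e) ^ 2 + 1 + C / e + 2 * |A|
  have hA := abs_nonneg A
  have hs := hv.toPos.toSol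
  have h0 := ph0_pos hv.toPos hv.stab x
  have h1 : M < 1 / ph0 v x := (lt_one_div (by positivity) h0).2 hx.1
  have h2 : C * ph0 v x ≤ e := by
    have : C / e ≤ 1 / ph0 v x := by simp only [M] at h1; linarith
    rw [div_le_div_iff₀ e0 h0] at this
    linarith
  have h3 : tt v x ≤ e := by simpa using (H v hs hv.stab x x).trans (by simpa using h2)
  have h4 : 3 / 4 ≤ NN v x := by
    rw [tt_eq] at h3
    nlinarith [NN_nonneg v x]
  have h5 : |dd v x| * ph0 v x ≤ e := (mul_le_mul_of_nonneg_right hx.2.1.le h0.le).trans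
    (log_mul_le e0 (by simp only [M]; linarith) h0 hx.1)
  have h6 : ph0 v x ≤ e := by nlinarith
  have h7 : min ρm (1 / (2 * ph0 v x)) ≤ rt β v ρm x :=
    le_rt (min_le_left _ _) fun r a1 a2 => fit_of_phi hs (by linarith) a1 (by
      have a3 := (lt_div_iff₀ (by positivity)).1 (a2.trans_le (min_le_right _ _))
      have a4 : phi (dd v) x * (r - dd v x) ≤ ph0 v x * (r + |dd v x|) :=
        mul_le_mul (le_max_left _ _) (by linarith [neg_abs_le (dd v x)])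
          (by linarith [le_abs_self (dd v x)]) h0.le
      nlinarith)
  have h8 : 8 * |dd v x| + 8 ≤ 1 / (2 * ph0 v x) := by
    rw [le_div_iff₀ (by positivity)]; nlinarith
  have h9 : Sm v x (rt β v ρm x) := ⟨hs, by linarith, (le_min hx.2.2.le h8).trans h7⟩
  refine ⟨h0, by linarith, by linarith, h4, by linarith, h7, h9, fit_of_le_rt h9.lt le_rfl,
    fun h => ?_⟩
  have a1 : 1 / (2 * ph0 v x) ≤ rt β v ρm x := (min_le_iff.1 h7).resolve_left (not_le.2 h)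
  refine ⟨a1, le_trans ?_ (mul_le_mul_of_nonneg_left a1 hδ.le), le_trans ?_ a1⟩
  · rw [mul_one_div, le_div_iff₀ (by positivity)]; linarith
  · rw [mul_comm, ← div_div]; simp only [M] at h1; linarith [le_abs_self A]

/-- `B + (1 + ε) ph ≥ 0` at every valid point -/
theorem VF.psd {β : Bo} {v : EE n → ℝ} {ρm δ A ε : ℝ} {x : EE n} (h : VF β v ρm δ A x)
    (hε : 0 < ε) (hε1 : ε ≤ 1) (hδ : δ ≤ ε / 4) (a : EE n) :
    0 ≤ (1 + ε) * ph β v ρm x * ‖a‖ ^ 2 + hb (dd v) x a a := by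
  have hr := h.sm.r8
  have h0 := h.pos
  rcases le_total (1 / (2 * ph0 v x)) (rt β v ρm x) with h2 | h2
  · have h2' : NN v x / (rt β v ρm x - dd v x) ≤ (1 + ε) * ph β v ρm x := by
      rw [ph, ← div_eq_mul_inv, div_le_div_iff₀ h.sm.Lpos (by linarith)]
      rw [div_le_iff₀ (by positivity)] at h2
      have h3 : |dd v x| ≤ ε / 2 * rt β v ρm x := by
        refine le_of_mul_le_mul_right ?_ h0
        nlinarith [h.dph]
      nlinarith [NN_le_one h.sm.sol x, le_abs_self (dd v x), mul_nonneg hε.le (sub_nonneg.2 hε1)]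
    nlinarith [h.sm.psd h.fit a, sq_nonneg ‖a‖]
  · have h3 : phi (dd v) x ≤ (1 + ε) * ph β v ρm x := by
      rw [ph, ← div_eq_mul_inv, le_div_iff₀ (by linarith)]
      rw [le_div_iff₀ (by positivity)] at h2
      have : phi (dd v) x ≤ ph0 v x := le_max_left _ _
      nlinarith
    nlinarith [hb_add_nonneg h.sm.sol x a, sq_nonneg ‖a‖]

/-- contacts at valid points -/
theorem val_contact (n : ℕ) (C2 A : ℝ) {δ : ℝ} (hδ : 0 < δ) (hδ1 : δ ≤ 1 / 4) : ∃ M : ℝ, 1 ≤ M ∧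
    ∀ (β : Bo) (v : EE n → ℝ) (ρm : ℝ), PS v → ∀ x ∈ Val v M C2 ρm, VF β v ρm δ A x ∧
      (rt β v ρm x < ρm → (∃ e, Deg v (NN v x / (rt β v ρm x - dd v x)) e x) ∨
        ∃ w om z y, Con β v x (rt β v ρm x) w om z y ∧
          (1 - δ) * (rt β v ρm x - dd v x) ≤ y + β.η * rt β v ρm x) := by
  obtain ⟨M0, H0⟩ := contact n hδ hδ1
  obtain ⟨M, hM, H⟩ := val_facts n C2 (max A M0) (δ := δ ^ 2 / 80) (by positivity)
  have h1 : δ ^ 2 / 80 ≤ δ := by nlinarith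
  refine ⟨M, hM, fun β v ρm hv x hx => ?_⟩
  have h := H β v ρm hv x hx
  refine ⟨⟨h.pos, h.small.trans h1, h.t.trans h1, h.N, h.dph.trans h1, h.lo, h.sm, h.fit,
    fun a => ⟨(h.act a).1, (h.act a).2.1.trans (mul_le_mul_of_nonneg_right h1
      (by linarith [h.sm.r8])), (le_max_left _ _).trans (h.act a).2.2⟩⟩, fun a =>
    H0 β v ρm x h.sm (h.act a).2.1 ((le_max_right _ _).trans (h.act a).2.2) a⟩

end

end Crest.Agent.N067.M.X0
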